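import Vale.Agent.P168.CavBound.Lists
import Vale.Agent.P168.Truncate.Compare

/-!
P168: Poisson lists of independent elements with functions of linear growth in the sizes of the
elements.
-/

open MeasureTheory ProbabilityTheory Filter Topology
open scoped NNReal ENNReal

noncomputable section

namespace Vale.Agent.P168

variable {T : Type} [MeasurableSpace T] {τ : Measure T} [IsProbabilityMeasure τ]

/-- Linear growth in the sizes of the elements gives integrability, and the integral is the mean
over the length of the means at fixed length. -/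
theorem integrable_plaw_sum (c : ℝ≥0) {F : PL T → ℝ} (hF : Measurable F) {A : ℝ} {D : T → ℝ}
    (hD : Integrable D τ) (hb : ∀ p, |F p| ≤ A + ∑ i, D (p.2 i)) :
    Integrable F (plaw c τ) ∧
      ∫ p, F p ∂plaw c τ = ∫ k, ∫ v : Fin k → T, F ⟨k, v⟩ ∂(Measure.pi fun _ => τ)
        ∂poissonMeasure c := by
  have hk : ∀ k, Integrable (fun v : Fin k → T => F ⟨k, v⟩) (Measure.pi fun _ => τ) ∧
      ∫ v : Fin k → T, ‖F ⟨k, v⟩‖ ∂(Measure.pi fun _ => τ) ≤ A + k * ∫ t, D t ∂τ := fun k => by
    have hs := integral_pi_sum (k := k) hD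
    have hi : Integrable (fun v : Fin k → T => A + ∑ i, D (v i)) (Measure.pi fun _ => τ) :=
      (integrable_const A).add hs.1
    have h1 : Integrable (fun v : Fin k → T => F ⟨k, v⟩) (Measure.pi fun _ => τ) :=
      hi.mono' (hF.comp (measurable_mk k)).aestronglyMeasurable (ae_of_all _ fun v => hb ⟨k, v⟩)
    refine ⟨h1, (integral_mono h1.norm hi fun v => hb ⟨k, v⟩).trans_eq ?_⟩
    rw [integral_add (integrable_const A) hs.1, hs.2]
    simp
  have hi : Integrable F (plaw c τ) := by
    rw [plaw, integrable_sum_measure_iff]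
    refine ⟨fun k => ((integrable_map_measure hF.aestronglyMeasurable
      (measurable_mk k).aemeasurable).2 (hk k).1).smul_measure (measure_ne_top _ _), ?_⟩
    refine Summable.of_nonneg_of_le (fun k => integral_nonneg fun p => norm_nonneg _) (fun k => ?_)
      ((summable_pw_pow c 1).mul_left (|A| + |∫ t, D t ∂τ|))
    rw [integral_smul_measure, smul_eq_mul, pw_smul_toReal,
      integral_map (measurable_mk k).aemeasurable hF.norm.aestronglyMeasurable, mul_left_comm,
      pow_one]
    refine mul_le_mul_of_nonneg_left ((hk k).2.trans ?_) (pw_nonneg c k)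
    nlinarith [le_abs_self A, le_abs_self (∫ t, D t ∂τ), abs_nonneg A,
      abs_nonneg (∫ t, D t ∂τ), k.cast_nonneg (α := ℝ)]
  refine ⟨hi, ?_⟩
  rw [← (hasSum_plaw hF hi).tsum_eq, integral_poissonMeasure]
  exact tsum_congr fun k => by rw [pw_eq, smul_eq_mul]

/-- Truncation at a level. -/
def cut (M : ℕ) (x : ℝ) : ℝ := max (-(M : ℝ)) (min M x)

/-- A Poisson list with a uniform tag, for functions of linear growth. -/
theorem plaw_tags_sum (M : ℕ) (a : ℝ≥0) {G : PL (Fin (M + 1) × T) → ℝ} (hG : Measurable G)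
    (hs : PL.Sym G) {A : ℝ} {D : T → ℝ} (hD : Integrable D τ)
    (hb : ∀ p, |G p| ≤ A + ∑ i, D (p.2 i).2) :
    Integrable (fun p : Fin (M + 1) → PL T => G (CavBound.tags (M + 1) p))
        (Measure.pi fun _ => plaw a τ) ∧
      ∫ p, G p ∂plaw (((M + 1 : ℕ) : ℝ≥0) * a) ((unif (Fin (M + 1))).prod τ) =
        ∫ p : Fin (M + 1) → PL T, G (CavBound.tags (M + 1) p) ∂(Measure.pi fun _ => plaw a τ) := by
  have : IsProbabilityMeasure (unif (Fin (M + 1))) := CavBound.unif_prob
  obtain ⟨hi, -⟩ := integrable_plaw_sum (((M + 1 : ℕ) : ℝ≥0) * a)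
    (τ := (unif (Fin (M + 1))).prod τ) hG (hD.comp_snd _) hb
  have mG : Measurable fun p : Fin (M + 1) → PL T => G (CavBound.tags (M + 1) p) :=
    hG.comp (CavBound.measurable_tags _)
  have hbt : ∀ p : Fin (M + 1) → PL T,
      |G (CavBound.tags (M + 1) p)| ≤ A + ∑ s, ∑ i, D ((p s).2 i) := fun p =>
    (hb _).trans_eq (by rw [CavBound.sum_tags (M + 1) p fun x => D x.2])
  obtain ⟨D', hD'm, hD'e⟩ := hD.aestronglyMeasurable.aemeasurable
  have hDi : ∀ s, Integrable (fun p : Fin (M + 1) → PL T => ∑ i, D ((p s).2 i))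
      (Measure.pi fun _ => plaw a τ) := by
    intro s
    have h1 : Integrable (fun q : PL T => ∑ i, D' (q.2 i)) (plaw a τ) :=
      (integrable_plaw_sum a (F := fun q : PL T => ∑ i, D' (q.2 i))
        (measurable_pl fun k => Finset.measurable_sum Finset.univ
          (f := fun (i : Fin k) (v : Fin k → T) => D' (v i)) fun i _ => hD'm.comp (measurable_pi_apply i))
        (A := 0) (D := fun t => |D' t|) (hD.congr hD'e).abs fun q => by
          rw [zero_add]; exact Finset.abs_sum_le_sum_abs _ _).1
    have h2 : (fun q : PL T => ∑ i, D' (q.2 i)) =ᵐ[plaw a τ] fun q => ∑ i, D (q.2 i) := by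
      rw [Filter.EventuallyEq, plaw, Measure.ae_sum_iff]
      intro k
      refine Measure.ae_smul_measure ?_ _
      rw [(measurableEmbedding_mk k).ae_map_iff]
      filter_upwards [ae_all_iff.2 fun i : Fin k =>
        (Measure.quasiMeasurePreserving_eval (fun _ : Fin k => τ) i).ae hD'e] with v hv
      exact Finset.sum_congr rfl fun i _ => (hv i).symm
    exact (measurePreserving_eval (fun _ : Fin (M + 1) => plaw a τ) s).integrable_comp_of_integrable
      (h1.congr h2)
  have hB : Integrable (fun p : Fin (M + 1) → PL T => A + ∑ s, ∑ i, D ((p s).2 i))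
      (Measure.pi fun _ => plaw a τ) :=
    (integrable_const A).add (integrable_finsetSum _ fun s _ => hDi s)
  have hIt := hB.mono' mG.aestronglyMeasurable (ae_of_all _ hbt)
  refine ⟨hIt, ?_⟩
  have hc : ∀ (L : ℕ) (y : ℝ), |cut L y| ≤ L ∧ |cut L y| ≤ |y| := fun L y => by
    have h0 : (0 : ℝ) ≤ L := Nat.cast_nonneg L
    unfold cut
    rcases le_total y (-(L : ℝ)) with h | h
    · rw [min_eq_right (h.trans (by linarith)), max_eq_left h, abs_neg, abs_of_nonneg h0,
        abs_of_nonpos (by linarith : y ≤ 0)]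
      exact ⟨le_rfl, by linarith⟩
    rcases le_total (L : ℝ) y with h' | h'
    · rw [min_eq_left h', max_eq_right (by linarith), abs_of_nonneg h0,
        abs_of_nonneg (h0.trans h')]
      exact ⟨le_rfl, h'⟩
    · rw [min_eq_right h', max_eq_right h]
      exact ⟨abs_le.2 ⟨h, h'⟩, le_rfl⟩
  have hl : ∀ y : ℝ, Tendsto (fun L : ℕ => cut L y) atTop (𝓝 y) := fun y => by
    refine tendsto_const_nhds.congr' ?_
    filter_upwards [eventually_ge_atTop ⌈|y|⌉₊] with L hL
    obtain ⟨h1, h2⟩ := abs_le.1 ((Nat.le_ceil |y|).trans (by exact_mod_cast hL : (_ : ℝ) ≤ (L : ℝ)))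
    rw [cut, min_eq_right h2, max_eq_right h1]
  have hcm : ∀ L, Measurable (cut L) := fun L => by unfold cut; fun_prop
  have e : ∀ L : ℕ, ∫ p, cut L (G p) ∂plaw (((M + 1 : ℕ) : ℝ≥0) * a) ((unif (Fin (M + 1))).prod τ) =
      ∫ p : Fin (M + 1) → PL T, cut L (G (CavBound.tags (M + 1) p))
        ∂(Measure.pi fun _ => plaw a τ) := fun L =>
    CavBound.plaw_tags M a L 0 (fun p => cut L (G p)) ((hcm L).comp hG)
      (fun k e v => congrArg (cut L) (hs k e v)) fun p => by simpa using (hc L _).1
  have l1 := tendsto_integral_of_dominated_convergence (fun p => |G p|)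
    (fun L => ((hcm L).comp hG).aestronglyMeasurable) hi.abs
    (fun L => ae_of_all _ fun p => (hc L _).2) (ae_of_all _ fun p => hl (G p))
  have l2 := tendsto_integral_of_dominated_convergence
    (fun p : Fin (M + 1) → PL T => |G (CavBound.tags (M + 1) p)|)
    (fun L => ((hcm L).comp mG).aestronglyMeasurable) hIt.abs
    (fun L => ae_of_all _ fun p => (hc L _).2) (ae_of_all _ fun p => hl _)
  exact tendsto_nhds_unique (l1.congr e) l2

end Vale.Agent.P168
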