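import Vale.Agent.P168.Upper.RecAlg
import Vale.Agent.P168.Upper.PLTools

/-!
P168: the recursion of clauses tagged by sites factorises over the sites.
-/

open MeasureTheory ProbabilityTheory Filter Topology Real
open scoped NNReal

noncomputable section

namespace Vale.Agent.P168

variable {K M k r : ℕ}

/-- The clauses tagged `s`, the others made void, with all positions. -/
def maskU (s : Fin M) (c : Fin k → Fin M × (Clause K × Fin K)) : Fin k → Clause K × Fin K :=
  fun j => (if (c j).1 = s then (c j).2.1 else 0, (c j).2.2)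

/-- The product over the sites of the variables `U`. -/
def uFac (x : (Fin (r + 1) → ℝ) → ℝ) (h : Fin M → ℝ) (c : Fin k → Fin M × (Clause K × Fin K))
    (ω : Fin (r + 1) → Fin k → Fin K → ℝ) : ℝ :=
  ∏ s, Uval (maskU s c) (h s) x ω

/-- The mean over the first level of its recursion. -/
def GB (p : Param r) (h : Fin M → ℝ) (c : Fin k → Fin M × (Clause K × Fin K)) : ℝ :=
  outerRec (lvl k K) p.m (uFac p.x h c)

/-- The bound on its logarithm. -/
def boundB (h : Fin M → ℝ) (c : Fin k → Fin M × (Clause K × Fin K)) : ℝ :=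
  M * Real.log 2 + (∑ s, |h s|) + ∑ j, ‖(c j).2.1‖

theorem measurable_maskU (s : Fin M) :
    Measurable fun c : Fin k → Fin M × (Clause K × Fin K) => maskU s c := by
  refine measurable_pi_lambda _ fun j => ?_
  have h : Measurable fun q : Fin M × (Clause K × Fin K) =>
      ((if q.1 = s then q.2.1 else 0), q.2.2) :=
    (Measurable.ite (measurable_fst (measurableSet_singleton s))
      (measurable_fst.comp measurable_snd) measurable_const).prodMk (measurable_snd.comp measurable_snd)
  exact h.comp (measurable_pi_apply j)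

theorem uFac_mem (p : Param r) (h : Fin M → ℝ) (c : Fin k → Fin M × (Clause K × Fin K))
    (ω : Fin (r + 1) → Fin k → Fin K → ℝ) :
    0 < uFac p.x h c ω ∧ |Real.log (uFac p.x h c ω)| ≤ boundB h c := by
  have hp := fun s => (Uval_compare p.range (maskU s c) (maskU s c) (fun _ => rfl) (h s) (h s) ω).1
  refine ⟨Finset.prod_pos fun s _ => hp s, ?_⟩
  rw [uFac, log_prod fun s _ => (hp s).ne']
  have e : ∑ s, ∑ j, ‖(maskU s c j).1‖ = ∑ j, ‖(c j).2.1‖ := by
    rw [Finset.sum_comm]
    refine Finset.sum_congr rfl fun j _ => ?_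
    rw [Finset.sum_eq_single (c j).1] <;> simp [maskU]
    exact fun b hb hb' => absurd hb'.symm hb
  refine (Finset.abs_sum_le_sum_abs _ _).trans ((Finset.sum_le_sum fun s _ => show
    |Real.log (Uval (maskU s c) (h s) p.x ω)| ≤
      Real.log 2 + |h s| + ∑ j, ‖(maskU s c j).1‖ from ?_).trans_eq ?_)
  · have := abs_log_Uval p.range (maskU s c) (h s) ω
    have h2 := abs_sub_abs_le_abs_sub (Real.log (Uval (maskU s c) (h s) p.x ω)) (Real.log 2)
    rw [abs_of_pos (Real.log_pos one_lt_two)] at h2
    linarith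
  · rw [Finset.sum_add_distrib, Finset.sum_add_distrib, e, boundB]
    simp

theorem measurable_uFac (p : Param r) :
    Measurable fun q : ((Fin M → ℝ) × (Fin k → Fin M × (Clause K × Fin K))) ×
      (Fin (r + 1) → Fin k → Fin K → ℝ) => uFac p.x q.1.1 q.1.2 q.2 :=
  Finset.measurable_prod Finset.univ (f := fun s (q : ((Fin M → ℝ) ×
      (Fin k → Fin M × (Clause K × Fin K))) × (Fin (r + 1) → Fin k → Fin K → ℝ)) =>
    Uval (maskU s q.1.2) (q.1.1 s) p.x q.2) fun s _ => by
    have h1 : Measurable fun q : ((Fin M → ℝ) × (Fin k → Fin M × (Clause K × Fin K))) ×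
        (Fin (r + 1) → Fin k → Fin K → ℝ) => ((maskU s q.1.2, q.1.1 s), q.2) :=
      (((measurable_maskU s).comp (measurable_snd.comp measurable_fst)).prodMk
        ((measurable_pi_apply s).comp (measurable_fst.comp measurable_fst))).prodMk measurable_snd
    exact (measurable_Uval p.meas).comp h1

attribute [local irreducible] uFac

theorem measurable_uFac_right (p : Param r) (h : Fin M → ℝ)
    (c : Fin k → Fin M × (Clause K × Fin K)) : Measurable (uFac p.x h c) :=
  (measurable_uFac p).comp (measurable_prodMk_left (x := (h, c)))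

theorem measurable_GB (p : Param r) :
    Measurable fun q : (Fin M → ℝ) × (Fin k → Fin M × (Clause K × Fin K)) => GB p q.1 q.2 :=
  measurable_outerRec (Y := fun (q : (Fin M → ℝ) × (Fin k → Fin M × (Clause K × Fin K))) ω =>
    uFac p.x q.1 q.2 ω) (measurable_uFac p)

theorem abs_GB_le (p : Param r) (h : Fin M → ℝ) (c : Fin k → Fin M × (Clause K × Fin K)) :
    |GB p h c| ≤ boundB h c := by
  have := (outerRec_compare (ν := lvl k K) (a := 0) (d := 0) p.pos (measurable_uFac_right p h c)
    (measurable_uFac_right p h c) (fun w => (uFac_mem p h c w).1) (fun w => (uFac_mem p h c w).1)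
    (fun w => by simpa using (uFac_mem p h c w).2) fun w => by simp).2
  simpa [GB] using this

theorem GB_perm (p : Param r) (h : Fin M → ℝ) (c : Fin k → Fin M × (Clause K × Fin K))
    (e : Equiv.Perm (Fin k)) : GB p h (c ∘ e) = GB p h c := by
  unfold GB
  rw [← outerRec_map (measurePreserving_permCol e) (measurable_uFac_right p h (c ∘ e))]
  congr 1
  funext ω
  unfold uFac
  refine Finset.prod_congr rfl fun s _ => ?_
  rw [Uval_eq, Uval_eq]
  refine Finset.sum_congr rfl fun b _ => congrArg _ ?_
  exact Equiv.prod_comp e fun j =>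
    ∑ σ, fixW (msg p.x ω j) (maskU s c j).2 b σ * Real.exp ((maskU s c j).1 σ)

theorem sum_fac_void (v : Fin K → ℝ) (l : Fin K) (e : Bool) :
    ∑ σ, fixW v l e σ * Real.exp ((0 : Clause K) σ) = 1 := by
  simp [sum_fixW]

theorem GB_zero (p : Param r) (h : Fin 0 → ℝ) (c : Fin k → Fin 0 × (Clause K × Fin K)) :
    GB p h c = 0 := by
  have hb := abs_GB_le p h c
  have e : boundB h c = 0 := by
    have : IsEmpty (Fin k) := ⟨fun j => (c j).1.elim0⟩
    simp [boundB]
  rw [e] at hb
  exact abs_nonpos_iff.1 hb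

/-- The site `0` splits off. -/
theorem GB_split (p : Param r) (h : Fin (M + 1) → ℝ) {a b : ℕ} (u : Fin a → Clause K × Fin K)
    (v : Fin b → Fin M × (Clause K × Fin K)) :
    GB p h (Fin.append (fun i => ((0 : Fin (M + 1)), u i)) fun j => ((v j).1.succ, (v j).2)) =
      outerRec (lvl a K) p.m (Uval u (h 0) p.x) + GB p (fun s => h s.succ) v := by
  set c := Fin.append (fun i => ((0 : Fin (M + 1)), u i)) fun j => ((v j).1.succ, (v j).2)
  set B := |(Real.log 2 + |h 0| + ∑ i, ‖(u i).1‖)| + |boundB (fun s => h s.succ) v|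
  have mU : Measurable (Uval u (h 0) p.x) :=
    (measurable_Uval p.meas).comp (measurable_prodMk_left (x := (u, h 0)))
  have mV := measurable_uFac_right p (fun s => h s.succ) v
  have hU : ∀ ω, Real.exp (-B) ≤ Uval u (h 0) p.x ω ∧ Uval u (h 0) p.x ω ≤ Real.exp B := fun ω => by
    have h0 := (Uval_compare p.range u u (fun _ => rfl) (h 0) (h 0) ω).1
    have := abs_log_Uval p.range u (h 0) ω
    have h2 := abs_sub_abs_le_abs_sub (Real.log (Uval u (h 0) p.x ω)) (Real.log 2)
    rw [abs_of_pos (Real.log_pos one_lt_two)] at h2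
    have h3 : |Real.log (Uval u (h 0) p.x ω)| ≤ B := by
      linarith [le_abs_self (Real.log 2 + |h 0| + ∑ i, ‖(u i).1‖),
        abs_nonneg (boundB (fun s => h s.succ) v)]
    exact ⟨(le_log_iff_exp_le h0).1 (abs_le.1 h3).1, (log_le_iff_le_exp h0).1 (abs_le.1 h3).2⟩
  have hV : ∀ ω, Real.exp (-B) ≤ uFac p.x (fun s => h s.succ) v ω ∧
      uFac p.x (fun s => h s.succ) v ω ≤ Real.exp B := fun ω => by
    obtain ⟨h0, h1⟩ := uFac_mem p (fun s => h s.succ) v ω
    have h3 : |Real.log (uFac p.x (fun s => h s.succ) v ω)| ≤ B := by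
      linarith [le_abs_self (boundB (fun s => h s.succ) v),
        abs_nonneg (Real.log 2 + |h 0| + ∑ i, ‖(u i).1‖)]
    exact ⟨(le_log_iff_exp_le h0).1 (abs_le.1 h3).1, (log_le_iff_le_exp h0).1 (abs_le.1 h3).2⟩
  unfold GB
  rw [← outerRec_prod (ν := lvl a K) (ν' := lvl b K) p.pos mU mV hU hV,
    ← outerRec_map (measurePreserving_splitCol a b K) (ν := lvl (a + b) K)
      (Y := fun w => Uval u (h 0) p.x (fun q => (w q).1) *
        uFac p.x (fun s => h s.succ) v fun q => (w q).2)
      ((mU.comp (measurable_pi_lambda _ fun q => measurable_fst.comp (measurable_pi_apply q))).mul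
        (mV.comp (measurable_pi_lambda _ fun q => measurable_snd.comp (measurable_pi_apply q))))]
  congr 1
  funext ω
  unfold uFac
  rw [Fin.prod_univ_succ]
  congr 1
  · rw [Uval_eq, Uval_eq]
    refine Finset.sum_congr rfl fun e _ => congrArg _ ?_
    rw [Fin.prod_univ_add]
    have h2 : ∀ j : Fin b, (maskU (0 : Fin (M + 1)) c (Fin.natAdd a j)).1 = 0 := fun j => by
      simp [maskU, c, Fin.succ_ne_zero]
    simp only [h2, sum_fac_void, Finset.prod_const_one, mul_one]
    refine Finset.prod_congr rfl fun i _ => ?_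
    simp [maskU, c, splitCol]
    rfl
  · refine Finset.prod_congr rfl fun s _ => ?_
    rw [Uval_eq, Uval_eq]
    refine Finset.sum_congr rfl fun e _ => congrArg _ ?_
    rw [Fin.prod_univ_add]
    have h2 : ∀ i : Fin a, (maskU s.succ c (Fin.castAdd b i)).1 = 0 := fun i => by
      simp [maskU, c, (Fin.succ_ne_zero s).symm]
    simp only [h2, sum_fac_void, Finset.prod_const_one, one_mul]
    refine Finset.prod_congr rfl fun i _ => ?_
    simp [maskU, c, splitCol, Fin.succ_inj]
    rfl

/-- On tagged lists the recursion is the sum over the sites. -/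
theorem GB_tags (p : Param r) : ∀ (M : ℕ) (h : Fin M → ℝ) (P : Fin M → PL (Clause K × Fin K)),
    GB p h (CavBound.tags M P).2 = ∑ s, outerRec (lvl (P s).1 K) p.m (Uval (P s).2 (h s) p.x)
  | 0, h, P => by simp [GB_zero]
  | M + 1, h, P => by
    rw [Fin.sum_univ_succ]
    refine (GB_split p h (P 0).2 (CavBound.tags M (Fin.tail P)).2).trans ?_
    rw [GB_tags p M (fun s => h s.succ) (Fin.tail P)]
    rfl

end Vale.Agent.P168
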