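import Vale.Agent.P168.Upper.Interp
import Vale.Agent.P168.Upper.Sites

/-!
P168: with no element mixed the recursion is the sum of `T U` over the sites.
-/

open MeasureTheory ProbabilityTheory Filter Topology Real
open scoped NNReal

noncomputable section

namespace Vale.Agent.P168

variable {K N M k r : ℕ}

/-- The site, clause and position of an element that is not mixed. -/
def siteOf (z : Root K N) : Fin N × (Clause K × Fin K) := ((z.2 z.1.2).1, z.1)

theorem measurePreserving_siteOf (μ : Measure (Clause K)) [IsProbabilityMeasure μ] (hK : 0 < K)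
    (hN : 0 < N) :
    MeasurePreserving (fun z : Root K N => (siteOf z, fun l => (z.2 l).2)) (rootMeas μ)
      (((unif (Fin N)).prod (μ.prod (unif (Fin K)))).prod (Measure.pi fun _ => u01)) := by
  have : Nonempty (Fin K) := ⟨⟨0, hK⟩⟩
  have : Nonempty (Fin N) := ⟨⟨0, hN⟩⟩
  have := isProbabilityMeasure_unif (Fin K)
  have := isProbabilityMeasure_unif (Fin N)
  set A := μ.prod (unif (Fin K))
  set U := unif (Fin N)
  have g1 := (MeasurePreserving.id A).prod
    (measurePreserving_arrowProdEquivProdArrow (Fin N) ℝ (Fin K) (fun _ => U) (fun _ => u01))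
  have g2 := (measurePreserving_prodAssoc A (Measure.pi fun _ : Fin K => U)
    (Measure.pi fun _ : Fin K => u01)).symm
  have hm : Measurable (Function.uncurry fun (a : Clause K × Fin K) (s : Fin K → Fin N) => s a.2) :=
    (measurable_from_prod_countable_left (f := fun q : (Fin K → Fin N) × Fin K => q.1 q.2)
      fun _ => measurable_pi_apply _).comp
      (measurable_snd.prodMk (measurable_snd.comp measurable_fst))
  have g3 : MeasurePreserving (fun q : (Clause K × Fin K) × (Fin K → Fin N) => (q.1, q.2 q.1.2))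
      (A.prod (Measure.pi fun _ : Fin K => U)) (A.prod U) :=
    (MeasurePreserving.id A).skew_product hm
      (ae_of_all _ fun a => (measurePreserving_eval (fun _ : Fin K => U) a.2).map_eq)
  exact ((Measure.measurePreserving_swap.comp g3).prod (MeasurePreserving.id _)).comp (g2.comp g1)

theorem msg_cons (x : (Fin (r + 1) → ℝ) → ℝ) (w : Fin k → Fin K → ℝ)
    (y : Fin r → Fin k → Fin K → ℝ) (i : Fin k) :
    msg x (Fin.cons w y) i = fun l => x (Fin.cons (w i l) fun p => y p i l) :=
  funext fun _ => congrArg x (funext fun p => Fin.cases rfl (fun _ => rfl) p)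

/-- No element mixed: the product over the sites. -/
theorem leafY_zero (x : (Fin (r + 1) → ℝ) → ℝ) (h : Fin N → ℝ) (z : Fin k → Root K N)
    (y : Fin r → Fin k → Fin K → ℝ) :
    leafY x h 0 z y =
      uFac x h (fun i => siteOf (z i)) (Fin.cons (fun i l => ((z i).2 l).2) y) := by
  unfold uFac
  simp only [Uval_eq]
  rw [Fintype.prod_sum]
  refine Finset.sum_congr rfl fun τ _ => ?_
  rw [Finset.prod_mul_distrib, ← exp_sum]
  congr 1
  rw [Finset.prod_comm]
  refine Finset.prod_congr rfl fun i _ => ?_
  rw [Finset.prod_eq_single (siteOf (z i)).1]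
  · simp [rootFac, maskU, siteOf, facB, msg_cons]
    rfl
  · intro s _ hs
    simp only [maskU, if_neg (Ne.symm hs)]
    exact sum_fac_void _ _ _
  · simp

/-- A two-sided bound passes to the recursion. -/
theorem abs_log_rpowRec {X : Type} [MeasurableSpace X] {ν : Measure X} [IsProbabilityMeasure ν]
    {m : Fin r → ℝ} (hm : ∀ p, 0 < m p) {Y : (Fin r → X) → ℝ} (hY : Measurable Y) {B : ℝ}
    (hb : ∀ w, 0 < Y w ∧ |Real.log (Y w)| ≤ B) : |Real.log (rpowRec ν r m Y)| ≤ B := by
  obtain ⟨h1, h2⟩ := rpowRec_mem (ν := ν) r m hm hY (exp_pos (-B)) (b := Real.exp B) fun w =>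
    ⟨(le_log_iff_exp_le (hb w).1).1 (abs_le.1 (hb w).2).1,
      (log_le_iff_le_exp (hb w).1).1 (abs_le.1 (hb w).2).2⟩
  have h0 := (exp_pos (-B)).trans_le h1
  exact abs_le.2 ⟨(le_log_iff_exp_le h0).2 h1, (log_le_iff_le_exp h0).2 h2⟩

attribute [local irreducible] uFac leafY

/-- The recursion with no element mixed. -/
theorem interpRec_zero (p : Param r) (μ : Measure (Clause K)) [IsProbabilityMeasure μ] (hK : 0 < K)
    (hN : 0 < N) (hθ : Integrable (fun θ : Clause K => ‖θ‖) μ) (h : Fin N → ℝ) (k : ℕ) :
    interpRec μ p.m p.x h k 0 = ∫ c : Fin k → Fin N × (Clause K × Fin K), GB p h c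
      ∂(Measure.pi fun _ => (unif (Fin N)).prod (μ.prod (unif (Fin K)))) := by
  have : Nonempty (Fin K) := ⟨⟨0, hK⟩⟩
  have : Nonempty (Fin N) := ⟨⟨0, hN⟩⟩
  have := isProbabilityMeasure_unif (Fin K)
  have := isProbabilityMeasure_unif (Fin N)
  set T := (unif (Fin N)).prod (μ.prod (unif (Fin K)))
  have hR : IsProbabilityMeasure (rootMeas (N := N) μ) := by unfold rootMeas; infer_instance
  have hmp : MeasurePreserving (fun z : Fin k → Root K N =>
      ((fun i => siteOf (z i)), fun i l => ((z i).2 l).2))
      (Measure.pi fun _ => rootMeas μ) ((Measure.pi fun _ => T).prod (lvl k K)) :=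
    (measurePreserving_arrowProdEquivProdArrow (Fin N × (Clause K × Fin K)) (Fin K → ℝ) (Fin k)
      (fun _ => T) (fun _ => Measure.pi fun _ => u01)).comp
      (measurePreserving_pi _ _ fun _ => measurePreserving_siteOf μ hK hN)
  set F : (Fin k → Fin N × (Clause K × Fin K)) × (Fin k → Fin K → ℝ) → ℝ := fun q =>
    Real.log (rpowRec (lvl k K) r p.m fun y => uFac p.x h q.1 (Fin.cons q.2 y))
  have mF : Measurable F := by
    have h1 : Measurable fun q : ((Fin k → Fin N × (Clause K × Fin K)) × (Fin k → Fin K → ℝ)) ×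
        (Fin r → Fin k → Fin K → ℝ) => uFac p.x h q.1.1 (Fin.cons q.1.2 q.2) :=
      (measurable_uFac p).comp ((measurable_const.prodMk (measurable_fst.comp measurable_fst)).prodMk
        (measurable_finCons.comp ((measurable_snd.comp measurable_fst).prodMk measurable_snd)))
    exact measurable_log.comp (measurable_rpowRec r p.m (Y := fun
      (q : (Fin k → Fin N × (Clause K × Fin K)) × (Fin k → Fin K → ℝ)) y =>
        uFac p.x h q.1 (Fin.cons q.2 y)) h1)
  have hb : ∀ q, |F q| ≤ boundB h q.1 := fun q => abs_log_rpowRec p.pos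
    ((measurable_uFac_right p h q.1).comp (measurable_finCons_right q.2)) fun w => uFac_mem p h q.1 _
  have hiB : Integrable (fun c : Fin k → Fin N × (Clause K × Fin K) => boundB h c)
      (Measure.pi fun _ => T) :=
    (integrable_const ((N : ℝ) * Real.log 2 + ∑ s, |h s|)).add
      (integral_pi_sum ((hθ.comp_fst _).comp_snd _ :
        Integrable (fun q : Fin N × (Clause K × Fin K) => ‖q.2.1‖) T)).1
  have hF : Integrable F ((Measure.pi fun _ => T).prod (lvl k K)) :=
    (hiB.comp_fst _).mono' mF.aestronglyMeasurable (ae_of_all _ hb)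
  calc interpRec μ p.m p.x h k 0
      = ∫ z : Fin k → Root K N, F ((fun i => siteOf (z i)), fun i l => ((z i).2 l).2)
          ∂(Measure.pi fun _ => rootMeas μ) := by
        refine integral_congr_ae (ae_of_all _ fun z => congrArg (fun Y => Real.log
          (rpowRec (lvl k K) r p.m Y)) (funext fun y => leafY_zero p.x h z y))
    _ = ∫ q, F q ∂((Measure.pi fun _ => T).prod (lvl k K)) := by
        rw [← hmp.map_eq, integral_map hmp.measurable.aemeasurable mF.aestronglyMeasurable]
    _ = _ := by rw [integral_prod _ hF]; rfl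

/-- With no element mixed, the mean over the number and the fields is a sum of copies of `T U`. -/
theorem integral_interpRec_zero (p : Param r) (μ : Measure (Clause K)) [IsProbabilityMeasure μ]
    (hK : 0 < K) (hθ : Integrable (fun θ : Clause K => ‖θ‖) μ) (ν : Measure ℝ)
    [IsProbabilityMeasure ν] (hh : Integrable (fun x : ℝ => x) ν) (M : ℕ) (a : ℝ≥0) :
    ∫ k, ∫ h : Fin (M + 1) → ℝ, interpRec μ p.m p.x h k 0 ∂(Measure.pi fun _ => ν)
        ∂poissonMeasure (((M + 1 : ℕ) : ℝ≥0) * a) =
      ((M + 1 : ℕ) : ℝ) * ∫ k, ∫ c : Fin k → Clause K × Fin K, meanU ν p.m p.x c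
        ∂(Measure.pi fun _ => μ.prod (unif (Fin K))) ∂poissonMeasure a := by
  have : Nonempty (Fin K) := ⟨⟨0, hK⟩⟩
  have := isProbabilityMeasure_unif (Fin K)
  have := isProbabilityMeasure_unif (Fin (M + 1))
  set τ := μ.prod (unif (Fin K))
  set νN := Measure.pi fun _ : Fin (M + 1) => ν
  have hD : Integrable (fun q : Clause K × Fin K => ‖q.1‖) τ := hθ.comp_fst _
  have hsum := integral_pi_sum (k := M + 1) (D := fun x : ℝ => |x|) hh.abs
  set A := ((M + 1 : ℕ) : ℝ) * (Real.log 2 + ∫ x, |x| ∂ν)
  set G : PL (Fin (M + 1) × (Clause K × Fin K)) → ℝ := fun q => ∫ h, GB p h q.2 ∂νN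
  have hBi : ∀ {k : ℕ} (c : Fin k → Fin (M + 1) × (Clause K × Fin K)),
      Integrable (fun h => boundB h c) νN ∧ ∫ h, boundB h c ∂νN = A + ∑ j, ‖(c j).2.1‖ :=
    fun c => by
    have j1 : Integrable (fun h : Fin (M + 1) → ℝ =>
        ((M + 1 : ℕ) : ℝ) * Real.log 2 + ∑ s, |h s|) νN := (integrable_const _).add hsum.1
    refine ⟨j1.add (integrable_const _), ?_⟩
    unfold boundB
    rw [integral_add j1 (integrable_const _), integral_add (integrable_const _) hsum.1, hsum.2]
    simp [A]
    ring
  have mGBh : ∀ {k : ℕ} (c : Fin k → Fin (M + 1) × (Clause K × Fin K)),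
      Measurable fun h => GB p h c := fun c => (measurable_GB p).comp measurable_prodMk_right
  have iG : ∀ {k : ℕ} (c : Fin k → Fin (M + 1) × (Clause K × Fin K)),
      Integrable (fun h => GB p h c) νN := fun c =>
    (hBi c).1.mono' (mGBh c).aestronglyMeasurable (ae_of_all _ fun h => abs_GB_le p h c)
  have mG : Measurable G := measurable_pl fun k => (StronglyMeasurable.integral_prod_right'
    (ν := νN) ((measurable_GB p).comp measurable_swap).stronglyMeasurable).measurable
  have hb : ∀ q, |G q| ≤ A + ∑ i, ‖(q.2 i).2.1‖ := fun q =>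
    (abs_integral_le_integral_abs.trans (integral_mono_of_nonneg
      (ae_of_all _ fun _ => abs_nonneg _) (hBi q.2).1
      (ae_of_all _ fun h => abs_GB_le p h q.2))).trans_eq (hBi q.2).2
  have hs : PL.Sym G := fun k e v => integral_congr_ae (ae_of_all _ fun h => GB_perm p h v e)
  have e1 : ∀ k, ∫ h, interpRec μ p.m p.x h k 0 ∂νN =
      ∫ v : Fin k → Fin (M + 1) × (Clause K × Fin K), G ⟨k, v⟩
        ∂(Measure.pi fun _ => (unif (Fin (M + 1))).prod τ) := fun k => by
    simp only [interpRec_zero p μ hK (Nat.succ_pos M) hθ]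
    refine integral_integral_swap ?_
    refine ((((integrable_const (((M + 1 : ℕ) : ℝ) * Real.log 2)).add hsum.1).comp_fst _).add
      ((integral_pi_sum (hD.comp_snd _)).1.comp_snd _)).mono' ?_ ?_
    · exact (measurable_GB p).aestronglyMeasurable
    · exact ae_of_all _ fun w => abs_GB_le p w.1 w.2
  simp only [e1]
  rw [← (integrable_plaw_sum (((M + 1 : ℕ) : ℝ≥0) * a) mG (hD.comp_snd _) hb).2,
    (plaw_tags_sum M a mG hs hD hb).2]
  have mU : Measurable fun q : PL (Clause K × Fin K) => meanU ν p.m p.x q.2 :=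
    measurable_pl fun k => (StronglyMeasurable.integral_prod_right' (ν := ν)
      (measurable_outerU p).stronglyMeasurable).measurable
  obtain ⟨iU, eU⟩ := integrable_plaw_sum a (τ := τ) mU hD (A := Real.log 2 + ∫ x, |x| ∂ν)
    fun q => (meanU_compare p hh measurable_id (by simp) q.2 q.2 fun _ => rfl).2
  have e2 : ∀ P : Fin (M + 1) → PL (Clause K × Fin K),
      G (CavBound.tags (M + 1) P) = ∑ s, meanU ν p.m p.x (P s).2 := fun P => by
    have mc : ∀ s h, Measurable (Uval (P s).2 h p.x) := fun s h =>
      (measurable_Uval p.meas).comp (measurable_prodMk_left (x := ((P s).2, h)))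
    have i1 : ∀ s, Integrable (fun h : ℝ => outerRec (lvl (P s).1 K) p.m (Uval (P s).2 h p.x)) ν :=
      fun s => ((integrable_const (|Real.log 2| + ∑ j, ‖((P s).2 j).1‖)).add hh.abs).mono'
        ((measurable_outerU p).comp (measurable_prodMk_left (x := (P s).2))).aestronglyMeasurable
        (ae_of_all _ fun h => ((outerRec_compare (ν := lvl (P s).1 K) (a := Real.log 2) p.pos
          (mc s h) (mc s h) (fun ω => (Uval_compare p.range _ _ (fun _ => rfl) h h ω).1)
          (fun ω => (Uval_compare p.range _ _ (fun _ => rfl) h h ω).1)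
          (fun ω => abs_log_Uval p.range _ h ω) (d := 0) fun ω => by simp).2).trans_eq
          (show |Real.log 2| + (|h| + ∑ j, ‖((P s).2 j).1‖) =
            |Real.log 2| + (∑ j, ‖((P s).2 j).1‖) + |h| by ring))
    simp only [G, GB_tags]
    refine (integral_finsetSum (μ := νN) Finset.univ
      (f := fun s (h : Fin (M + 1) → ℝ) => outerRec (lvl (P s).1 K) p.m (Uval (P s).2 (h s) p.x))
      fun s _ => (measurePreserving_eval (fun _ : Fin (M + 1) => ν) s).integrable_comp_of_integrable
        (i1 s)).trans ?_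
    refine Finset.sum_congr rfl fun s _ => ?_
    have h0 := integral_map (measurable_pi_apply s).aemeasurable (μ := νN)
      (f := fun h : ℝ => outerRec (lvl (P s).1 K) p.m (Uval (P s).2 h p.x))
      (by rw [(measurePreserving_eval (fun _ : Fin (M + 1) => ν) s).map_eq]
          exact (i1 s).aestronglyMeasurable)
    rw [(measurePreserving_eval (fun _ : Fin (M + 1) => ν) s).map_eq] at h0
    exact h0.symm
  simp only [e2]
  rw [(integral_pi_sum iU).2, eU]

end Vale.Agent.P168
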