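import Vale.Agent.P168.Upper.Tree

/-!
P168: mixing all elements lowers the interpolated recursion.
-/

open MeasureTheory ProbabilityTheory Filter Topology Real
open scoped NNReal

noncomputable section

namespace Vale.Agent.P168

open P157.Casc (Leaf Node node path wgt casW casX logS cst)

variable {K N k r n : ℕ}

instance isProbabilityMeasure_casX_lvl : IsProbabilityMeasure (casX r n (lvl k K)) :=
  @P157.Casc.casX_prob r n _ _ (lvl k K) (isProbabilityMeasure_lvl k K)

theorem measurable_logS_leafY (p : Param r) (h : Fin N → ℝ) (j n : ℕ) :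
    Measurable fun q : (Fin k → Root K N) × (Node r (n + 1) → ℝ) ×
      (Node r (n + 1) → Fin k → Fin K → ℝ) => logS p.m (leafY p.x h j q.1) q.2.1 q.2.2 :=
  P157.Casc.measurable_logS (Y0 := fun z => leafY p.x h j z) (measurable_leafY p.meas h j)

attribute [local irreducible] leafY P157.Casc.logS

theorem grid_param (p : Param r) : P157.Casc.Grid p.m := ⟨p.mono, p.pos, p.lt_one⟩

theorem conv_leafY (p : Param r) (h : Fin N → ℝ) (j : ℕ) (z : Fin k → Root K N) :
    P157.Casc.Conv (Measure.dirac ()) (lvl k K) (fun (_ : ℕ) (_ : Unit) => leafY p.x h j z)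
      (fun _ => leafY p.x h j z) fun _ _ => leafB h z := by
  have hm : Measurable (Function.uncurry fun (_ : Unit) => leafY p.x h j z) :=
    ((measurable_leafY p.meas h j).comp (measurable_prodMk_left (x := z))).comp measurable_snd
  refine ⟨fun _ => hm, hm, measurable_const, fun _ _ y => ?_, fun _ _ => tendsto_const_nhds,
    fun _ => integrable_const _⟩
  obtain ⟨h1, h2⟩ := leafY_mem p.range h j z y
  exact ⟨(le_log_iff_exp_le h1).1 (abs_le.1 h2).1, (log_le_iff_le_exp h1).1 (abs_le.1 h2).2⟩

/-- The centred mean logarithm on a finite tree. -/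
def treeMean (p : Param r) (h : Fin N → ℝ) (j n : ℕ) (z : Fin k → Root K N) : ℝ :=
  (∫ W, ∫ ξ, logS p.m (leafY p.x h j z) W ξ ∂casX r (n + 1) (lvl k K) ∂casW p.m (n + 1)) -
    cst p.m (n + 1)

theorem tendsto_treeMean (p : Param r) (h : Fin N → ℝ) (j : ℕ) (z : Fin k → Root K N) :
    Tendsto (fun n => treeMean p h j n z) atTop
      (𝓝 (Real.log (rpowRec (lvl k K) r p.m (leafY p.x h j z)))) := by
  have hb : ∀ y, Real.exp (-leafB h z) ≤ leafY p.x h j z y ∧
      leafY p.x h j z y ≤ Real.exp (leafB h z) := (conv_leafY p h j z).bound 0 ()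
  have := P157.Casc.casc_limit (grid_param p) (conv_leafY p h j z)
    (tendsto_add_atTop_nat 1 : Tendsto (fun n : ℕ => n + 1) atTop atTop)
  have hm : Measurable (leafY p.x h j z) :=
    (measurable_leafY p.meas h j).comp (measurable_prodMk_left (x := z))
  rw [← casc_log_eq_rpowRec r p.pos hm hb]
  simpa [treeMean] using this

theorem abs_logS_sub_le (p : Param r) (h : Fin N → ℝ) (j : ℕ) (z : Fin k → Root K N)
    {W : Node r (n + 1) → ℝ} (hW : ∀ v, 0 < W v) (ξ : Node r (n + 1) → Fin k → Fin K → ℝ) :
    |logS p.m (leafY p.x h j z) W ξ - Real.log (∑ α, wgt p.m W α)| ≤ leafB h z := by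
  have hp := fun α => (leafY_mem p.range h j z (path ξ α)).1
  have := abs_log_sum_exp_sub (d := leafB h z) (w := fun α => wgt p.m W α)
    (a := fun α => Real.log (leafY p.x h j z (path ξ α))) (b := fun _ => 0)
    (fun α => (P157.Casc.wgt_pos _ hW α).le)
    (Finset.sum_pos (fun α _ => P157.Casc.wgt_pos _ hW α) Finset.univ_nonempty) fun α => by
      rw [sub_zero]; exact (leafY_mem p.range h j z (path ξ α)).2
  simpa [logS, exp_log (hp _)] using this

theorem integrable_logS_tree (p : Param r) (h : Fin N → ℝ) (j : ℕ) (z : Fin k → Root K N) :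
    Integrable (fun q : (Node r (n + 1) → ℝ) × (Node r (n + 1) → Fin k → Fin K → ℝ) =>
      logS p.m (leafY p.x h j z) q.1 q.2)
      ((casW p.m (n + 1)).prod (casX r (n + 1) (lvl k K))) := by
  have := P157.Casc.integrable_logS (grid_param p) (Nat.succ_pos n) (conv_leafY p h j z)
  rw [Measure.dirac_prod, integrable_map_measure this.aestronglyMeasurable
    measurable_prodMk_left.aemeasurable] at this
  exact this

theorem abs_treeMean_le (p : Param r) (h : Fin N → ℝ) (j n : ℕ) (z : Fin k → Root K N) :
    |treeMean p h j n z| ≤ leafB h z := by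
  have hc : P157.Casc.Conv (Measure.dirac ()) (lvl k K) (fun (_ : ℕ) (_ : Unit) =>
      fun _ : Fin r → Fin k → Fin K → ℝ => (1 : ℝ)) (fun _ _ => 1) fun _ _ => 0 :=
    ⟨fun _ => measurable_const, measurable_const, measurable_const,
      fun _ _ _ => by simp, fun _ _ => tendsto_const_nhds, fun _ => integrable_const _⟩
  have hP : IsProbabilityMeasure (casX r (n + 1) (lvl k K)) := isProbabilityMeasure_casX_lvl
  have hS : SFinite (casX r (n + 1) (lvl k K)) := @instSFiniteOfSigmaFinite _ _ _ inferInstance
  have h1 := P157.Casc.integrable_logS (grid_param p) (Nat.succ_pos n) hc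
  rw [Measure.dirac_prod, integrable_map_measure h1.aestronglyMeasurable
    measurable_prodMk_left.aemeasurable] at h1
  have h2 := integrable_logS_tree (n := n) p h j z
  have e1 : cst p.m (n + 1) = ∫ q : (Node r (n + 1) → ℝ) × (Node r (n + 1) → Fin k → Fin K → ℝ),
      Real.log (∑ α, wgt p.m q.1 α) ∂((casW p.m (n + 1)).prod (casX r (n + 1) (lvl k K))) := by
    rw [integral_fun_fst (μ := casW p.m (n + 1)) (ν := casX r (n + 1) (lvl k K))
      (fun W => Real.log (∑ α, wgt p.m W α)), probReal_univ, one_smul]
    rfl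
  have h1' : Integrable (fun q : (Node r (n + 1) → ℝ) × (Node r (n + 1) → Fin k → Fin K → ℝ) =>
      Real.log (∑ α, wgt p.m q.1 α)) ((casW p.m (n + 1)).prod (casX r (n + 1) (lvl k K))) :=
    h1.congr (ae_of_all _ fun q => by simp [logS, Function.comp])
  unfold treeMean
  rw [integral_integral h2, e1, ← integral_sub h2 h1']
  refine (abs_integral_le_integral_abs.trans (integral_mono_of_nonneg
    (ae_of_all _ fun _ => abs_nonneg _) (integrable_const (leafB h z)) ?_)).trans_eq (by simp)
  filter_upwards [Measure.quasiMeasurePreserving_fst.ae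
    (P157.Casc.ae_casW_pos p.m (n + 1))] with q hq
  exact abs_logS_sub_le p h j z hq q.2

variable {Ω : Type} [MeasurableSpace Ω] (P : Measure Ω) [IsProbabilityMeasure P]
  (a b : Ω → ℝ) (f : Fin K → Ω → Bool → ℝ) {νh : Measure ℝ}

theorem treeMean_step (hK : Even K) (hK0 : 0 < K) (hN : 0 < N) (hc : InClass P a b f νh)
    [IsProbabilityMeasure (clauseLaw P a b f)]
    (hθ : Integrable (fun θ : Clause K => ‖θ‖) (clauseLaw P a b f)) (p : Param r)
    (h : Fin N → ℝ) {j : ℕ} (hj : j < k) (n : ℕ) :
    ∫ z : Fin k → Root K N, treeMean p h (j + 1) n z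
        ∂(Measure.pi fun _ => rootMeas (clauseLaw P a b f)) ≤
      ∫ z : Fin k → Root K N, treeMean p h j n z
        ∂(Measure.pi fun _ => rootMeas (clauseLaw P a b f)) := by
  set μ := clauseLaw P a b f
  have : Nonempty (Fin K) := ⟨⟨0, hK0⟩⟩
  have : Nonempty (Fin N) := ⟨⟨0, hN⟩⟩
  have := isProbabilityMeasure_unif (Fin K)
  have := isProbabilityMeasure_unif (Fin N)
  have hR : IsProbabilityMeasure (rootMeas (N := N) μ) := by unfold rootMeas; infer_instance
  set mR := Measure.pi fun _ : Fin k => rootMeas (N := N) μ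
  have hn : Integrable (fun e : Root K N => ‖e.1.1‖) (rootMeas μ) := (hθ.comp_fst _).comp_fst _
  have hB : Integrable (fun z : Fin k → Root K N => leafB h z) mR :=
    (integrable_const ((N : ℝ) * Real.log 2 + ∑ i, |h i|)).add (integral_pi_sum hn).1
  set CW := casW p.m (n + 1)
  set CX := casX r (n + 1) (lvl k K)
  have : IsProbabilityMeasure CX := by simp only [CX, casX]; infer_instance
  have mL : ∀ j, Measurable fun q : (Fin k → Root K N) × (Node r (n + 1) → ℝ) ×
      (Node r (n + 1) → Fin k → Fin K → ℝ) => logS p.m (leafY p.x h j q.1) q.2.1 q.2.2 := fun j =>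
    P157.Casc.measurable_logS (Y0 := fun z => leafY p.x h j z) (measurable_leafY p.meas h j)
  have mT : ∀ j, Measurable fun z : Fin k → Root K N => treeMean p h j n z := fun j => by
    have h1 : Measurable fun w : ((Fin k → Root K N) × (Node r (n + 1) → ℝ)) ×
        (Node r (n + 1) → Fin k → Fin K → ℝ) => logS p.m (leafY p.x h j w.1.1) w.1.2 w.2 :=
      (mL j).comp ((measurable_fst.comp measurable_fst).prodMk
        ((measurable_snd.comp measurable_fst).prodMk measurable_snd))
    exact ((StronglyMeasurable.integral_prod_right' (ν := CW)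
      (StronglyMeasurable.integral_prod_right' (ν := CX) h1.stronglyMeasurable)).measurable).sub_const _
  have hT : ∀ j, Integrable (fun z => treeMean p h j n z) mR := fun j =>
    hB.mono' (mT j).aestronglyMeasurable (ae_of_all _ fun z => abs_treeMean_le p h j n z)
  rw [← sub_nonpos, ← integral_sub (hT _) (hT _)]
  set D : (Fin k → Root K N) × (Node r (n + 1) → ℝ) × (Node r (n + 1) → Fin k → Fin K → ℝ) → ℝ :=
    fun q => logS p.m (leafY p.x h (j + 1) q.1) q.2.1 q.2.2 -
      logS p.m (leafY p.x h j q.1) q.2.1 q.2.2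
  have hD : Integrable D (mR.prod (CW.prod CX)) := by
    refine ((hB.const_mul 2).comp_fst _).mono' ((mL _).sub (mL _)).aestronglyMeasurable ?_
    filter_upwards [Measure.quasiMeasurePreserving_snd.ae (Measure.quasiMeasurePreserving_fst.ae
      (P157.Casc.ae_casW_pos p.m (n + 1)))] with q hq
    have h1 := abs_le.1 (abs_logS_sub_le p h (j + 1) q.1 hq q.2.2)
    have h2 := abs_le.1 (abs_logS_sub_le p h j q.1 hq q.2.2)
    exact abs_le.2 ⟨by linarith, by linarith⟩
  have e1 : ∫ z, treeMean p h (j + 1) n z - treeMean p h j n z ∂mR =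
      ∫ q, D q ∂(mR.prod (CW.prod CX)) := by
    rw [integral_prod _ hD]
    refine integral_congr_ae (ae_of_all _ fun z => ?_)
    dsimp only [D, treeMean]
    rw [integral_sub (integrable_logS_tree p h _ z) (integrable_logS_tree p h _ z),
      integral_integral (integrable_logS_tree p h _ z),
      integral_integral (integrable_logS_tree p h _ z)]
    ring
  rw [e1]
  have hmp : MeasurePreserving (fun q : (Node r (n + 1) → ℝ) × (Fin k → Root K N) ×
      (Node r (n + 1) → Fin k → Fin K → ℝ) => (q.2.1, q.1, q.2.2))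
      (CW.prod (mR.prod CX)) (mR.prod (CW.prod CX)) :=
    ((measurePreserving_prodAssoc mR CW CX).comp
      ((Measure.measurePreserving_swap (μ := CW) (ν := mR)).prod (MeasurePreserving.id CX))).comp
      (measurePreserving_prodAssoc CW mR CX).symm
  have hD2 : Integrable (fun w : (Node r (n + 1) → ℝ) × (Fin k → Root K N) ×
      (Node r (n + 1) → Fin k → Fin K → ℝ) => D (w.2.1, w.1, w.2.2)) (CW.prod (mR.prod CX)) :=
    hmp.integrable_comp_of_integrable hD
  rw [← hmp.map_eq, integral_map hmp.measurable.aemeasurable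
    (by rw [hmp.map_eq]; exact hD.aestronglyMeasurable),
    integral_prod _ hD2]
  refine integral_nonpos_of_ae ?_
  filter_upwards [P157.Casc.ae_casW_pos p.m (n + 1)] with W hW
  have hL := fun j q => logS_eq_relLog (x := p.x) p.range p.m h j W hW (Nat.succ_pos n)
    (q : (Fin k → Root K N) × (Node r (n + 1) → Fin k → Fin K → ℝ))
  simp only [D, hL, add_sub_add_left_eq_sub, Pi.zero_apply]
  set g : Leaf r (n + 1) × (Fin N → Bool) → ℝ := fun s =>
    wgt p.m W s.1 * Real.exp (∑ i, h i * sgn (s.2 i)) /
      ∑ t : Leaf r (n + 1) × (Fin N → Bool), wgt p.m W t.1 * Real.exp (∑ i, h i * sgn (t.2 i))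
  set X : Leaf r (n + 1) × (Fin N → Bool) → TreeMsg r (n + 1) → ℝ := fun s ξ =>
    p.x (Fin.cons ξ.1 (path ξ.2 s.1))
  have hpos : ∀ s : Leaf r (n + 1) × (Fin N → Bool),
      0 < wgt p.m W s.1 * Real.exp (∑ i, h i * sgn (s.2 i)) := fun s =>
    mul_pos (P157.Casc.wgt_pos _ hW _) (exp_pos _)
  have hT0 := Finset.sum_pos (fun s _ => hpos s)
    (Finset.univ_nonempty (α := Leaf r (n + 1) × (Fin N → Bool)))
  have hg : ∀ s, 0 ≤ g s := fun s => div_nonneg (hpos s).le hT0.le
  have hg1 : ∑ s, g s = 1 := by simp only [g]; rw [← Finset.sum_div, div_self hT0.ne']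
  have hXm : ∀ s, Measurable (X s) := fun s => p.meas.comp (measurable_finCons.comp
    (measurable_fst.prodMk ((P157.Casc.measurable_path s.1).comp measurable_snd)))
  have hlay := measurePreserving_layout (k := k) (N := N) (r := r) (n := n + 1) μ hK0 hN
  have : IsProbabilityMeasure (slotMeas N r (n + 1)) := by
    have : IsProbabilityMeasure (casX r (n + 1) u01) := by simp only [casX]; infer_instance
    unfold slotMeas
    infer_instance
  have hiD : ∀ j, Integrable (fun d => relLog g Prod.snd X j d)
      (Measure.pi fun _ : Fin k => elemLaw μ (slotMeas N r (n + 1))) := fun j => by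
    have : IsProbabilityMeasure (elemLaw (K := K) μ (slotMeas N r (n + 1))) := by
      unfold elemLaw; infer_instance
    exact (integral_pi_sum ((hθ.comp_fst _).comp_fst _ : Integrable (fun e : Elem K N _ =>
      ‖e.1.1‖) (elemLaw μ (slotMeas N r (n + 1))))).1.mono'
      (measurable_relLog g Prod.snd X hXm j).aestronglyMeasurable
      (ae_of_all _ fun d => abs_relLog_le g Prod.snd X (fun s ξ => p.range _) hg hg1 j d)
  rw [← integral_map (f := fun d => relLog g Prod.snd X (j + 1) d - relLog g Prod.snd X j d)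
    hlay.measurable.aemeasurable
    (by rw [hlay.map_eq]; exact ((hiD _).sub (hiD _)).aestronglyMeasurable), hlay.map_eq,
    integral_sub (hiD _) (hiD _), sub_nonpos]
  exact step_le g Prod.snd X (fun s ξ => p.range _) hg hg1 P a b f (slotMeas N r (n + 1)) hK hK0
    hXm hc hθ hj

/-- All mixed is at most none mixed. -/
theorem interpRec_le (hK : Even K) (hK0 : 0 < K) (hN : 0 < N) (hc : InClass P a b f νh)
    [IsProbabilityMeasure (clauseLaw P a b f)]
    (hθ : Integrable (fun θ : Clause K => ‖θ‖) (clauseLaw P a b f)) (p : Param r)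
    (h : Fin N → ℝ) (k : ℕ) :
    interpRec (clauseLaw P a b f) p.m p.x h k k ≤ interpRec (clauseLaw P a b f) p.m p.x h k 0 := by
  set μ := clauseLaw P a b f
  have : Nonempty (Fin K) := ⟨⟨0, hK0⟩⟩
  have : Nonempty (Fin N) := ⟨⟨0, hN⟩⟩
  have := isProbabilityMeasure_unif (Fin K)
  have := isProbabilityMeasure_unif (Fin N)
  have hR : IsProbabilityMeasure (rootMeas (N := N) μ) := by unfold rootMeas; infer_instance
  have hn : Integrable (fun e : Root K N => ‖e.1.1‖) (rootMeas μ) := (hθ.comp_fst _).comp_fst _
  have hB : Integrable (fun z : Fin k → Root K N => leafB h z)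
      (Measure.pi fun _ : Fin k => rootMeas (N := N) μ) :=
    (integrable_const ((N : ℝ) * Real.log 2 + ∑ i, |h i|)).add (integral_pi_sum hn).1
  have mT : ∀ j n, AEStronglyMeasurable (fun z : Fin k → Root K N => treeMean p h j n z)
      (Measure.pi fun _ : Fin k => rootMeas (N := N) μ) := fun j n => by
    have h1 : Measurable fun w : ((Fin k → Root K N) × (Node r (n + 1) → ℝ)) ×
        (Node r (n + 1) → Fin k → Fin K → ℝ) => logS p.m (leafY p.x h j w.1.1) w.1.2 w.2 :=
      (P157.Casc.measurable_logS (Y0 := fun z => leafY p.x h j z) (measurable_leafY p.meas h j)).comp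
        ((measurable_fst.comp measurable_fst).prodMk
          ((measurable_snd.comp measurable_fst).prodMk measurable_snd))
    have : IsProbabilityMeasure (casX r (n + 1) (lvl k K)) := by simp only [casX]; infer_instance
    exact (((StronglyMeasurable.integral_prod_right' (ν := casW p.m (n + 1))
      (StronglyMeasurable.integral_prod_right' (ν := casX r (n + 1) (lvl k K))
        h1.stronglyMeasurable)).measurable).sub_const _).aestronglyMeasurable
  have lim : ∀ j, Tendsto (fun n => ∫ z, treeMean p h j n z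
      ∂(Measure.pi fun _ : Fin k => rootMeas (N := N) μ)) atTop (𝓝 (interpRec μ p.m p.x h k j)) :=
    fun j => tendsto_integral_of_dominated_convergence (fun z => leafB h z) (mT j) hB
      (fun n => ae_of_all _ fun z => abs_treeMean_le p h j n z)
      (ae_of_all _ fun z => tendsto_treeMean p h j z)
  have key : ∀ j, j ≤ k → interpRec μ p.m p.x h k j ≤ interpRec μ p.m p.x h k 0 := by
    intro j hj
    induction j with
    | zero => exact le_rfl
    | succ j ih =>
      exact (le_of_tendsto_of_tendsto' (lim (j + 1)) (lim j) fun n =>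
        treeMean_step P a b f hK hK0 hN hc hθ p h (Nat.lt_of_succ_le hj) n).trans
        (ih (Nat.le_of_succ_le hj))
  exact key k le_rfl

end Vale.Agent.P168
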