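import Vale.Agent.P168.Upper.Step
import Vale.Agent.P168.Truncate.Trial
import Vale.Agent.P157.Casc.Limit
import Vale.Agent.P157.Casc.Segment

/-!
P168: the elements of a list with the labels of a tree, as roots and labels of the vertices.
-/

open MeasureTheory ProbabilityTheory Filter Topology Real
open scoped NNReal

noncomputable section

namespace Vale.Agent.P168

section
variable {ι κ X : Type*} [Fintype ι] [Fintype κ] [MeasurableSpace X]

theorem map_pair_pi (μ : Measure X) [IsProbabilityMeasure μ] :
    (Measure.pi fun _ : ι => Measure.pi fun _ : κ => μ).map (fun u (q : ι × κ) => u q.1 q.2) =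
      Measure.pi fun _ : ι × κ => μ := by
  have hm : Measurable fun (u : ι → κ → X) (q : ι × κ) => u q.1 q.2 :=
    measurable_pi_lambda _ fun q => (measurable_pi_apply q.2).comp (measurable_pi_apply q.1)
  refine (Measure.pi_eq fun s hs => ?_).symm
  rw [Measure.map_apply hm (MeasurableSet.univ_pi hs)]
  have : (fun (u : ι → κ → X) (q : ι × κ) => u q.1 q.2) ⁻¹' Set.univ.pi s =
      Set.univ.pi fun i => Set.univ.pi fun j => s (i, j) := by
    ext u
    simp [Set.mem_pi]
  rw [this, Measure.pi_pi]
  simp only [Measure.pi_pi, Fintype.prod_prod_type]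

/-- Independent variables indexed by pairs do not mind the order of the indices. -/
theorem measurePreserving_flip (μ : Measure X) [IsProbabilityMeasure μ] :
    MeasurePreserving (fun (u : ι → κ → X) j i => u i j)
      (Measure.pi fun _ : ι => Measure.pi fun _ : κ => μ)
      (Measure.pi fun _ : κ => Measure.pi fun _ : ι => μ) := by
  have hf : Measurable fun (u : ι → κ → X) j i => u i j :=
    measurable_pi_lambda _ fun j => measurable_pi_lambda _ fun i =>
      (measurable_pi_apply j).comp (measurable_pi_apply i)
  refine ⟨hf, ?_⟩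
  set G := (MeasurableEquiv.curry κ ι X).symm with hG
  have hG' : (G : (κ → ι → X) → κ × ι → X) = fun u q => u q.1 q.2 := rfl
  refine MeasurableEquiv.map_measurableEquiv_injective G ?_
  rw [hG', Measure.map_map (by rw [← hG']; exact G.measurable) hf, map_pair_pi]
  have hs : Measurable fun (w : ι × κ → X) (q : κ × ι) => w (q.2, q.1) :=
    measurable_pi_lambda _ fun q => measurable_pi_apply _
  have h2 : (fun (w : κ → ι → X) (q : κ × ι) => w q.1 q.2) ∘ (fun (u : ι → κ → X) j i => u i j) =
      (fun (w : ι × κ → X) (q : κ × ι) => w (q.2, q.1)) ∘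
        fun (u : ι → κ → X) (q : ι × κ) => u q.1 q.2 := rfl
  rw [h2, ← Measure.map_map hs (measurable_pi_lambda _ fun q =>
    (measurable_pi_apply q.2).comp (measurable_pi_apply q.1)), map_pair_pi]
  exact (measurePreserving_piCongrLeft (fun _ : κ × ι => μ) (Equiv.prodComm ι κ)).map_eq ▸
    congrArg (fun F => (Measure.pi fun _ : ι × κ => μ).map F) (funext fun w => funext fun q => by
      have := MeasurableEquiv.piCongrLeft_apply_apply (β := fun _ : κ × ι => X)
        (Equiv.prodComm ι κ) w (q.2, q.1)
      simpa using this.symm)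

end

variable {K N k r n : ℕ}

/-- A clause, a position, the sites and the first level variables. -/
abbrev Root (K N : ℕ) : Type := (Clause K × Fin K) × (Fin K → Fin N × ℝ)

/-- The randomness of a message on a tree: the first level and the labels of the vertices. -/
abbrev TreeMsg (r n : ℕ) : Type := ℝ × (P157.Casc.Node r n → ℝ)

/-- The law of a root. -/
def rootMeas (μ : Measure (Clause K)) : Measure (Root K N) :=
  (μ.prod (unif (Fin K))).prod (Measure.pi fun _ => (unif (Fin N)).prod u01)

/-- The law of a slot on a tree. -/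
def slotMeas (N r n : ℕ) : Measure (Fin N × TreeMsg r n) :=
  (unif (Fin N)).prod (u01.prod (P157.Casc.casX r n u01))

/-- Roots and labels of the vertices as elements. -/
def layout (q : (Fin k → Root K N) × (P157.Casc.Node r n → Fin k → Fin K → ℝ)) :
    Fin k → Elem K N (TreeMsg r n) :=
  fun i => ((q.1 i).1, fun l => (((q.1 i).2 l).1, ((q.1 i).2 l).2, fun v => q.2 v i l))

theorem measurePreserving_layout (μ : Measure (Clause K)) [IsProbabilityMeasure μ] (hK : 0 < K)
    (hN : 0 < N) :
    MeasurePreserving (layout (k := k) (r := r) (n := n))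
      ((Measure.pi fun _ : Fin k => rootMeas (N := N) μ).prod
        (P157.Casc.casX r n (lvl k K)))
      (Measure.pi fun _ : Fin k => elemLaw μ (slotMeas N r n)) := by
  have : Nonempty (Fin K) := ⟨⟨0, hK⟩⟩
  have : Nonempty (Fin N) := ⟨⟨0, hN⟩⟩
  have := isProbabilityMeasure_unif (Fin K)
  have := isProbabilityMeasure_unif (Fin N)
  set A := μ.prod (unif (Fin K))
  set U := unif (Fin N)
  set C := P157.Casc.casX r n u01
  have : IsProbabilityMeasure C := by simp only [C, P157.Casc.casX]; infer_instance
  have hR : IsProbabilityMeasure (rootMeas (N := N) μ) := by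
    show IsProbabilityMeasure (A.prod (Measure.pi fun _ : Fin K => U.prod u01))
    infer_instance
  have : IsProbabilityMeasure (slotMeas N r n) := by
    show IsProbabilityMeasure (U.prod (u01.prod C))
    infer_instance
  have f1 : MeasurePreserving (fun (ξ : P157.Casc.Node r n → Fin k → Fin K → ℝ) i v => ξ v i)
      (P157.Casc.casX r n (lvl k K))
      (Measure.pi fun _ : Fin k => Measure.pi fun _ : P157.Casc.Node r n =>
        Measure.pi fun _ : Fin K => u01) := measurePreserving_flip _
  have f2 : MeasurePreserving (fun (ξ : Fin k → P157.Casc.Node r n → Fin K → ℝ) i l v => ξ i v l)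
      (Measure.pi fun _ : Fin k => Measure.pi fun _ : P157.Casc.Node r n =>
        Measure.pi fun _ : Fin K => u01)
      (Measure.pi fun _ : Fin k => Measure.pi fun _ : Fin K => C) :=
    measurePreserving_pi _ _ fun _ => measurePreserving_flip u01
  have s1 := (MeasurePreserving.id (Measure.pi fun _ : Fin k => rootMeas (N := N) μ)).prod
    (f2.comp f1)
  have s2 := (measurePreserving_arrowProdEquivProdArrow (Root K N) (Fin K → P157.Casc.Node r n → ℝ)
    (Fin k) (fun _ => rootMeas μ) (fun _ => Measure.pi fun _ : Fin K => C)).symm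
  have g1 : MeasurePreserving
      (fun p : Root K N × (Fin K → P157.Casc.Node r n → ℝ) => (p.1.1, p.1.2, p.2))
      ((rootMeas μ).prod (Measure.pi fun _ : Fin K => C))
      (A.prod ((Measure.pi fun _ : Fin K => U.prod u01).prod (Measure.pi fun _ : Fin K => C))) :=
    measurePreserving_prodAssoc A _ _
  have g2 := (measurePreserving_arrowProdEquivProdArrow (Fin N × ℝ) (P157.Casc.Node r n → ℝ)
    (Fin K) (fun _ => U.prod u01) (fun _ => C)).symm
  have g3 : MeasurePreserving (fun (w : Fin K → (Fin N × ℝ) × (P157.Casc.Node r n → ℝ)) l =>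
      ((w l).1.1, (w l).1.2, (w l).2)) (Measure.pi fun _ => (U.prod u01).prod C)
      (Measure.pi fun _ => slotMeas N r n) :=
    measurePreserving_pi _ _ fun _ => measurePreserving_prodAssoc U u01 C
  have g : MeasurePreserving (fun p : Root K N × (Fin K → P157.Casc.Node r n → ℝ) =>
      (p.1.1, fun l => ((p.1.2 l).1, (p.1.2 l).2, p.2 l)))
      ((rootMeas μ).prod (Measure.pi fun _ : Fin K => C)) (elemLaw μ (slotMeas N r n)) :=
    ((MeasurePreserving.id A).prod (g3.comp g2)).comp g1
  have : IsProbabilityMeasure (elemLaw μ (slotMeas N r n) : Measure (Elem K N (TreeMsg r n))) := by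
    show IsProbabilityMeasure (A.prod (Measure.pi fun _ : Fin K => slotMeas N r n))
    infer_instance
  exact ((measurePreserving_pi _ _ fun _ : Fin k => g).comp s2).comp s1

end Vale.Agent.P168
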