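import Vale.Agent.P168.Upper.Mixed
import Vale.Agent.P168.Truncate.Main
import Vale.Agent.P168.Conc.Rep

/-!
P168: the upper bound by interpolation.
-/

open MeasureTheory ProbabilityTheory Filter Topology Real
open scoped NNReal

noncomputable section

namespace Vale.Agent.P168

variable {K N r : ℕ}

attribute [local irreducible] leafY Vval logZ outerRec GB

/-- The mean of a sum over a Poisson list. -/
theorem integral_plaw_linear {T : Type} [MeasurableSpace T] {τ : Measure T} [IsProbabilityMeasure τ]
    (c : ℝ≥0) {f : T → ℝ} (hf : Measurable f) (hi : Integrable f τ) :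
    Integrable (fun q : PL T => ∑ i, f (q.2 i)) (plaw c τ) ∧
      ∫ q, ∑ i, f (q.2 i) ∂plaw c τ = c * ∫ t, f t ∂τ := by
  have hb : ∀ q : PL T, |∑ i, f (q.2 i)| ≤ 0 + ∑ i, |f (q.2 i)| := fun q => by
    rw [zero_add]; exact Finset.abs_sum_le_sum_abs _ _
  obtain ⟨h1, h2⟩ := integrable_plaw_sum c (F := fun q : PL T => ∑ i, f (q.2 i))
    (measurable_pl fun k => Finset.measurable_sum Finset.univ
      (f := fun (i : Fin k) (v : Fin k → T) => f (v i)) fun i _ => hf.comp (measurable_pi_apply i))
    hi.abs hb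
  have hl := CavBound.integral_len c τ
  rw [(integrable_plaw_sum c (F := fun q : PL T => (q.1 : ℝ))
    (measurable_pl fun k => measurable_const (a := (k : ℝ))) (integrable_const (1 : ℝ)) (A := 0)
    fun q => by simp).2] at hl
  simp only [integral_const, probReal_univ, one_smul] at hl
  refine ⟨h1, ?_⟩
  rw [h2, ← hl, ← integral_mul_const]
  exact integral_congr_ae (ae_of_all _ fun k => (integral_pi_sum hi).2)

variable (μ : Measure (Clause K)) [IsProbabilityMeasure μ] (p : Param r)

theorem abs_interpRec_le (hK : 0 < K) (hN : 0 < N)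
    (hθ : Integrable (fun θ : Clause K => ‖θ‖) μ) (h : Fin N → ℝ) (k j : ℕ) :
    |interpRec μ p.m p.x h k j| ≤
      ((N : ℝ) * Real.log 2 + ∑ i, |h i|) + k * ∫ θ, ‖θ‖ ∂μ := by
  have : Nonempty (Fin K) := ⟨⟨0, hK⟩⟩
  have : Nonempty (Fin N) := ⟨⟨0, hN⟩⟩
  have := isProbabilityMeasure_unif (Fin K)
  have := isProbabilityMeasure_unif (Fin N)
  have hR : IsProbabilityMeasure (rootMeas (N := N) μ) := by unfold rootMeas; infer_instance
  have hn : Integrable (fun e : Root K N => ‖e.1.1‖) (rootMeas μ) := (hθ.comp_fst _).comp_fst _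
  have e : ∫ t : Root K N, ‖t.1.1‖ ∂rootMeas μ = ∫ θ, ‖θ‖ ∂μ := by
    unfold rootMeas
    rw [integral_fun_fst (fun q : Clause K × Fin K => ‖q.1‖), integral_fun_fst (fun θ : Clause K => ‖θ‖)]
    simp
  have hs := integral_pi_sum (k := k) hn
  have hB : Integrable (fun z : Fin k → Root K N => leafB h z)
      (Measure.pi fun _ : Fin k => rootMeas (N := N) μ) :=
    (integrable_const ((N : ℝ) * Real.log 2 + ∑ i, |h i|)).add hs.1
  refine (abs_integral_le_integral_abs.trans (integral_mono_of_nonneg
    (ae_of_all _ fun _ => abs_nonneg _) hB (ae_of_all _ fun z => abs_log_rpowRec p.pos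
      ((measurable_leafY p.meas h j).comp (measurable_prodMk_left (x := z)))
      fun w => leafY_mem p.range h j z w))).trans_eq ?_
  unfold leafB
  rw [integral_add (integrable_const _) hs.1, hs.2, e]
  simp

theorem measurable_interpRec_zero (hK : 0 < K) (hN : 0 < N)
    (hθ : Integrable (fun θ : Clause K => ‖θ‖) μ) (k : ℕ) :
    Measurable fun h : Fin N → ℝ => interpRec μ p.m p.x h k 0 := by
  have : Nonempty (Fin K) := ⟨⟨0, hK⟩⟩
  have : Nonempty (Fin N) := ⟨⟨0, hN⟩⟩
  have := isProbabilityMeasure_unif (Fin K)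
  have := isProbabilityMeasure_unif (Fin N)
  simp only [interpRec_zero p μ hK hN hθ]
  exact (StronglyMeasurable.integral_prod_right' (f := fun q : (Fin N → ℝ) ×
    (Fin k → Fin N × (Clause K × Fin K)) => GB p q.1 q.2)
    (measurable_GB p).stronglyMeasurable).measurable

theorem measurable_interpRec_top (hK : 0 < K) (hN : 0 < N)
    (hθ : Integrable (fun θ : Clause K => ‖θ‖) μ) (k : ℕ) :
    Measurable fun h : Fin N → ℝ => interpRec μ p.m p.x h k k := by
  have : Nonempty (Fin K) := ⟨⟨0, hK⟩⟩
  have : Nonempty (Fin N) := ⟨⟨0, hN⟩⟩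
  have := isProbabilityMeasure_unif (Fin K)
  have := isProbabilityMeasure_unif (Fin K → Fin N)
  simp only [interpRec_top p μ hK hN hθ]
  have h1 : Measurable fun q : (Fin N → ℝ) × (Fin k → MixElem K N) =>
      logZ (fun i => mixT (q.2 i)) q.1 + meanV p.m p.x (fun i => mixV (q.2 i)) :=
    (measurable_logZ.comp (((measurable_pi_lambda _ fun i => measurable_mixT.comp
      (measurable_pi_apply i)).comp measurable_snd).prodMk measurable_fst)).add
      (((measurable_meanV p k).comp (measurable_pi_lambda _ fun i => measurable_mixV.comp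
        (measurable_pi_apply i))).comp measurable_snd)
  exact (StronglyMeasurable.integral_prod_right' (f := fun q : (Fin N → ℝ) ×
    (Fin k → MixElem K N) => logZ (fun i => mixT (q.2 i)) q.1 +
      meanV p.m p.x (fun i => mixV (q.2 i))) h1.stronglyMeasurable).measurable

variable (ν : Measure ℝ) [IsProbabilityMeasure ν]

omit [IsProbabilityMeasure μ] [IsProbabilityMeasure ν] in
theorem meanLogZ_perm {k : ℕ} (e : Equiv.Perm (Fin k)) (c : Fin k → Term K N) :
    meanLogZ ν (c ∘ e) = meanLogZ ν c := by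
  refine integral_congr_ae (ae_of_all _ fun h => ?_)
  unfold logZ ham
  refine congrArg Real.log (Finset.sum_congr rfl fun σ _ => congrArg (fun u => Real.exp (u + _)) ?_)
  exact Equiv.sum_comp e fun j => (c j).1 fun q => σ ((c j).2 q)

/-- With all elements mixed, the mean over the number and the fields is the free energy plus the
mean of the clauses of messages. -/
theorem integral_interpRec_top (hK : 0 < K) (hθ : Integrable (fun θ : Clause K => ‖θ‖) μ)
    (hh : Integrable (fun x : ℝ => x) ν) (hN : 0 < N) (lam : ℝ) :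
    ∫ k, ∫ h : Fin N → ℝ, interpRec μ p.m p.x h k k ∂(Measure.pi fun _ => ν)
        ∂poissonMeasure ((K : ℝ≥0) * (lam * N).toNNReal) =
      (N : ℝ) * pressure lam μ ν N +
        ((lam * N).toNNReal : ℝ) * (((K : ℝ) - 1) * ∫ θ, oneV p θ ∂μ) := by
  obtain ⟨M, rfl⟩ : ∃ M, K = M + 1 := ⟨K - 1, (Nat.succ_pred_eq_of_pos hK).symm⟩
  have : Nonempty (Fin N) := ⟨⟨0, hN⟩⟩
  have := isProbabilityMeasure_unif (Fin (M + 1))
  have := isProbabilityMeasure_unif (Fin (M + 1) → Fin N)
  set a := (lam * N).toNNReal
  set S := unif (Fin (M + 1) → Fin N)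
  set T := (μ.prod (unif (Fin (M + 1)))).prod S
  set νN := Measure.pi fun _ : Fin N => ν
  set A := (N : ℝ) * (Real.log 2 + ∫ x, |x| ∂ν)
  set G1 : PL (MixElem (M + 1) N) → ℝ := fun q => meanLogZ ν fun i => mixT (q.2 i)
  set f : MixElem (M + 1) N → ℝ := fun t => oneV p (mixV t)
  have hD : Integrable (fun t : MixElem (M + 1) N => ‖t.1.1‖) T := (hθ.comp_fst _).comp_fst _
  have hnT : ∀ t : MixElem (M + 1) N, ‖(mixT t).1‖ ≤ ‖t.1.1‖ := fun t => by
    unfold mixT; split_ifs <;> simp
  have mf : Measurable f := (measurable_oneV p).comp measurable_mixV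
  have hf : Integrable f T := hD.mono' mf.aestronglyMeasurable (ae_of_all _ fun t =>
    (abs_oneV_le p _).trans (by unfold mixV; split_ifs <;> simp))
  have mG : Measurable G1 := measurable_pl fun k => measurable_meanLogZ.comp
    (measurable_pi_lambda _ fun i => measurable_mixT.comp (measurable_pi_apply i))
  have hb : ∀ q, |G1 q| ≤ A + ∑ i, ‖(q.2 i).1.1‖ := fun q =>
    (meanLogZ_bound hh _).2.trans (add_le_add le_rfl (Finset.sum_le_sum fun i _ => hnT _))
  have hs : PL.Sym G1 := fun k e v => meanLogZ_perm ν e fun i => mixT (v i)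
  obtain ⟨i1, e1⟩ := integrable_plaw_sum (((M + 1 : ℕ) : ℝ≥0) * a) mG hD hb
  obtain ⟨i2, e2⟩ := integral_plaw_linear (((M + 1 : ℕ) : ℝ≥0) * a) mf hf
  have e0 : ∀ k, ∫ h, interpRec μ p.m p.x h k k ∂νN =
      ∫ d : Fin k → MixElem (M + 1) N, G1 ⟨k, d⟩ + ∑ i, f (d i) ∂(Measure.pi fun _ => T) := by
    intro k
    simp only [interpRec_top p μ hK hN hθ]
    have hN' := integral_pi_sum (k := N) (D := fun x : ℝ => |x|) hh.abs
    have hS := (integral_pi_sum (k := k) hD).1
    have m1 : Measurable fun q : (Fin N → ℝ) × (Fin k → MixElem (M + 1) N) =>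
        logZ (fun i => mixT (q.2 i)) q.1 + meanV p.m p.x (fun i => mixV (q.2 i)) :=
      (measurable_logZ.comp (((measurable_pi_lambda _ fun i => measurable_mixT.comp
        (measurable_pi_apply i)).comp measurable_snd).prodMk measurable_fst)).add
        (((measurable_meanV p k).comp (measurable_pi_lambda _ fun i => measurable_mixV.comp
          (measurable_pi_apply i))).comp measurable_snd)
    rw [integral_integral_swap]
    · refine integral_congr_ae (ae_of_all _ fun d => ?_)
      dsimp only
      rw [integral_add (meanLogZ_bound hh _).1 (integrable_const _), integral_const,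
        probReal_univ, one_smul, meanV_eq_sum]
      rfl
    · refine ((((integrable_const ((N : ℝ) * Real.log 2)).add hN'.1).comp_fst _).add
        ((hS.const_mul 2).comp_snd _)).mono' m1.aestronglyMeasurable (ae_of_all _ fun q => ?_)
      have h1 := abs_le.1 (abs_logZ_sub_log (fun i => mixT (q.2 i)) q.1)
      have h1' : ∑ i, ‖(mixT (q.2 i)).1‖ ≤ ∑ i, ‖(q.2 i).1.1‖ :=
        Finset.sum_le_sum fun i _ => hnT _
      have h2 : |meanV p.m p.x fun i => mixV (q.2 i)| ≤ ∑ i, ‖mixV (q.2 i)‖ := by
        simpa using (meanV_compare p (fun i => mixV (q.2 i)) fun i => mixV (q.2 i)).2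
      have h2' : ∑ i, ‖mixV (q.2 i)‖ ≤ ∑ i, ‖(q.2 i).1.1‖ :=
        Finset.sum_le_sum fun i _ => by unfold mixV; split_ifs <;> simp
      have h2'' := abs_le.1 h2
      have h3 : 0 ≤ (N : ℝ) * Real.log 2 := by positivity
      simp only [Real.norm_eq_abs, Function.uncurry, Pi.add_apply]
      exact abs_le.2 ⟨by linarith, by linarith⟩
  simp only [e0]
  rw [← (integrable_plaw_sum (((M + 1 : ℕ) : ℝ≥0) * a) (F := fun q => G1 q + ∑ i, f (q.2 i))
    (mG.add (measurable_pl fun k => Finset.measurable_sum Finset.univ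
      (f := fun (i : Fin k) (v : Fin k → MixElem (M + 1) N) => f (v i))
      fun i _ => mf.comp (measurable_pi_apply i))) (hD.add hf.abs) (A := A) fun q => ?_).2,
    integral_add i1 i2, e2]
  swap
  · simp only [Pi.add_apply, Finset.sum_add_distrib]
    linarith [abs_add_le (G1 q) (∑ i, f (q.2 i)), hb q,
      Finset.abs_sum_le_sum_abs (fun i => f (q.2 i)) Finset.univ]
  congr 1
  · -- the clauses at the first position
    set g : Fin (M + 1) × Term (M + 1) N → MixElem (M + 1) N := fun t => ((t.2.1, t.1), t.2.2)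
    have hg : MeasurePreserving g ((unif (Fin (M + 1))).prod (μ.prod S)) T :=
      ((Measure.measurePreserving_swap.prod (MeasurePreserving.id S)).comp
        (measurePreserving_prodAssoc (unif (Fin (M + 1))) μ S).symm)
    rw [← hg.map_eq, CavBound.integral_lmap hg.measurable _ mG]
    rw [(plaw_tags_sum M a (G := fun q => G1 (CavBound.lmap g q)) (mG.comp (CavBound.measurable_lmap hg.measurable))
      (CavBound.Sym.lmap hs g) (hθ.comp_fst S) fun q => hb (CavBound.lmap g q)).2]
    have e3 : ∀ P : Fin (M + 1) → PL (Term (M + 1) N),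
        G1 (CavBound.lmap g (CavBound.tags (M + 1) P)) = meanLogZ ν (P 0).2 := fun P => by
      refine integral_congr_ae (ae_of_all _ fun h => ?_)
      unfold logZ ham
      refine congrArg Real.log (Finset.sum_congr rfl fun σ _ => congrArg (fun u => Real.exp (u + _)) ?_)
      refine (Fin.sum_univ_add (a := (P 0).1) (b := (CavBound.tags M (Fin.tail P)).1) _).trans ?_
      refine (congrArg₂ (· + ·) (Finset.sum_congr rfl fun i _ => ?_)
        (Finset.sum_eq_zero fun i _ => ?_)).trans (add_zero _)
      · simp [CavBound.lmap, CavBound.tags, PL.app, g, mixT]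
      · simp [CavBound.lmap, CavBound.tags, PL.app, g, mixT]
    simp only [e3]
    have mZ : Measurable fun q : PL (Term (M + 1) N) => meanLogZ ν q.2 :=
      measurable_pl fun k => measurable_meanLogZ
    obtain ⟨iZ, eZ⟩ := integrable_plaw_sum a (τ := μ.prod S) mZ (hθ.comp_fst S) (A := A)
      fun q => (meanLogZ_bound hh q.2).2
    have h0 := integral_map (measurable_pi_apply (0 : Fin (M + 1))).aemeasurable
      (μ := Measure.pi fun _ : Fin (M + 1) => plaw a (μ.prod S))
      (f := fun q : PL (Term (M + 1) N) => meanLogZ ν q.2) mZ.aestronglyMeasurable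
    rw [(measurePreserving_eval (fun _ : Fin (M + 1) => plaw a (μ.prod S)) 0).map_eq] at h0
    rw [← h0, eZ, pressure, ← mul_assoc, mul_inv_cancel₀ (Nat.cast_ne_zero.2 hN.ne'), one_mul]
    unfold meanLogZ logZ
    rfl
  · have e4 : ∫ t, f t ∂T = ((M : ℝ) / (M + 1)) * ∫ θ, oneV p θ ∂μ := by
      have e : ∀ t : MixElem (M + 1) N, f t = (fun q : Clause (M + 1) × Fin (M + 1) =>
          if (q.2 : ℕ) = 0 then 0 else oneV p q.1) t.1 := fun t => by
        simp only [f, mixV]
        split_ifs <;> simp [oneV_zero]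
      simp only [e]
      have hi : Integrable (fun q : Clause (M + 1) × Fin (M + 1) =>
          if (q.2 : ℕ) = 0 then 0 else oneV p q.1) (μ.prod (unif (Fin (M + 1)))) :=
        (hθ.comp_fst _).mono' (Measurable.aestronglyMeasurable (measurable_from_prod_countable_left
          fun l => by
            by_cases hl : (l : ℕ) = 0 <;> simp [hl, measurable_oneV]))
          (ae_of_all _ fun q => by split_ifs <;> simp [abs_oneV_le])
      rw [integral_fun_fst (fun q : Clause (M + 1) × Fin (M + 1) =>
        if (q.2 : ℕ) = 0 then 0 else oneV p q.1), probReal_univ, one_smul, integral_prod _ hi,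
        ← integral_const_mul]
      refine integral_congr_ae (ae_of_all _ fun θ => ?_)
      simp only [integral_unif, Fintype.card_fin, Fin.sum_univ_succ]
      simp
      ring
    rw [e4]
    push_cast
    field_simp
    ring

/-- `T V` is linear in the mean of one clause. -/
theorem TV_linear (hθ : Integrable (fun θ : Clause K => ‖θ‖) μ) (lam : ℝ) :
    TV lam μ p.m p.x = ((((K : ℝ) - 1) * lam).toNNReal : ℝ) * ∫ θ, oneV p θ ∂μ := by
  have hi : Integrable (oneV p) μ :=
    hθ.mono' (measurable_oneV p).aestronglyMeasurable (ae_of_all _ (abs_oneV_le p))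
  rw [TV_eq, ← (integral_plaw_linear _ (measurable_oneV p) hi).2,
    (integrable_plaw_sum _ (F := fun q : PL (Clause K) => ∑ i, oneV p (q.2 i))
      (measurable_pl fun k => Finset.measurable_sum Finset.univ
        (f := fun (i : Fin k) (v : Fin k → Clause K) => oneV p (v i))
        fun i _ => (measurable_oneV p).comp (measurable_pi_apply i))
      hi.abs (A := 0) fun q => by rw [zero_add]; exact Finset.abs_sum_le_sum_abs _ _).2]
  simp only [meanV_eq_sum p]

/-- The upper bound by interpolation. -/
theorem upperBound : UpperBound := by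
  intro K hK hKe lam hlam Ω _ P _ a b f ν _ hc v hv ε hε
  obtain ⟨r, p, rfl⟩ := hv
  set μ := clauseLaw P a b f with hμ
  have hmeas : Measurable fun ω => thetaOf (a ω) (b ω) fun j => f j ω := by
    refine measurable_pi_lambda _ fun σ => measurable_log.comp (hc.meas_a.mul ((hc.meas_b.mul
      (Finset.measurable_prod _ fun j _ => ?_)).const_add 1))
    exact (measurable_pi_apply (σ j)).comp (hc.meas_f j)
  have : IsProbabilityMeasure μ := Measure.isProbabilityMeasure_map hmeas.aemeasurable
  have hσ : ∀ σ, Integrable (fun θ : Clause K => θ σ) μ := fun σ =>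
    (integrable_map_measure (measurable_pi_apply σ).aestronglyMeasurable hmeas.aemeasurable).2
      (hc.theta_int σ)
  have hθ : Integrable (fun θ : Clause K => ‖θ‖) μ :=
    (integrable_finsetSum _ fun σ _ => (hσ σ).abs).mono' measurable_norm.aestronglyMeasurable
      (ae_of_all _ fun θ => by rw [Real.norm_of_nonneg (norm_nonneg _)]; exact norm_le_sum θ)
  have hK0 : 0 < K := by omega
  filter_upwards [eventually_gt_atTop 0] with N hN
  obtain ⟨M, rfl⟩ : ∃ M, N = M + 1 := ⟨N - 1, (Nat.succ_pred_eq_of_pos hN).symm⟩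
  set c : ℝ≥0 := (K : ℝ≥0) * (lam * (M + 1 : ℕ)).toNNReal with hcdef
  have hK1 : (1 : ℝ) ≤ K := by exact_mod_cast hK0
  have hceq : c = ((M + 1 : ℕ) : ℝ≥0) * ((K : ℝ) * lam).toNNReal := by
    rw [hcdef]
    refine NNReal.coe_injective ?_
    push_cast
    rw [Real.coe_toNNReal _ (by positivity), Real.coe_toNNReal _ (by positivity)]
    ring
  have hh := hc.field_int
  set νN := Measure.pi fun _ : Fin (M + 1) => ν
  have hs := integral_pi_sum (k := M + 1) (D := fun x : ℝ => |x|) hh.abs
  set A := ((M + 1 : ℕ) : ℝ) * (Real.log 2 + ∫ x, |x| ∂ν)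
  set E := ∫ θ, ‖θ‖ ∂μ
  have hbi : ∀ k : ℕ, Integrable
      (fun h : Fin (M + 1) → ℝ => ((((M + 1 : ℕ) : ℝ) * Real.log 2 + ∑ i, |h i|) + k * E)) νN :=
    fun k => ((integrable_const _).add hs.1).add (integrable_const _)
  have hij : ∀ (j : ℕ → ℕ), (∀ k, Measurable fun h : Fin (M + 1) → ℝ => interpRec μ p.m p.x h k (j k)) →
      (∀ k, Integrable (fun h : Fin (M + 1) → ℝ => interpRec μ p.m p.x h k (j k)) νN) ∧
      Integrable (fun k => ∫ h, interpRec μ p.m p.x h k (j k) ∂νN) (poissonMeasure c) := by
    intro j hm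
    refine ⟨fun k => (hbi k).mono' (hm k).aestronglyMeasurable
      (ae_of_all _ fun h => abs_interpRec_le μ p hK0 hN hθ h k (j k)), ?_⟩
    refine ((integrable_const A).add ((integrable_natCast_poisson c).1.mul_const E)).mono'
      (measurable_of_countable _).aestronglyMeasurable (ae_of_all _ fun k => ?_)
    refine (abs_integral_le_integral_abs.trans (integral_mono_of_nonneg
      (ae_of_all _ fun _ => abs_nonneg _) (hbi k)
      (ae_of_all _ fun h => abs_interpRec_le μ p hK0 hN hθ h k (j k)))).trans_eq ?_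
    have j1 : Integrable (fun h : Fin (M + 1) → ℝ =>
        ((M + 1 : ℕ) : ℝ) * Real.log 2 + ∑ i, |h i|) νN := (integrable_const _).add hs.1
    rw [integral_add j1 (integrable_const _), integral_add (integrable_const _) hs.1, hs.2]
    simp [A]
    ring
  obtain ⟨iT, iT'⟩ := hij id fun k => measurable_interpRec_top μ p hK0 hN hθ k
  obtain ⟨iZ, iZ'⟩ := hij (fun _ => 0) fun k => measurable_interpRec_zero μ p hK0 hN hθ k
  have key : ∫ k, ∫ h, interpRec μ p.m p.x h k k ∂νN ∂poissonMeasure c ≤
      ∫ k, ∫ h, interpRec μ p.m p.x h k 0 ∂νN ∂poissonMeasure c :=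
    integral_mono iT' iZ' fun k => integral_mono (iT k) (iZ k) fun h =>
      interpRec_le P a b f hKe hK0 hN hc hθ p h k
  rw [hcdef, integral_interpRec_top μ p ν hK0 hθ hh hN lam, ← hcdef, hceq,
    integral_interpRec_zero p μ hK0 hθ ν hh M, ← TU_eq] at key
  have hTV := TV_linear μ p hθ lam
  have hKl : 0 ≤ ((K : ℝ) - 1) * lam := mul_nonneg (by linarith) hlam.le
  rw [Real.coe_toNNReal _ hKl] at hTV
  rw [Real.coe_toNNReal _ (by positivity)] at key
  refine le_trans ?_ (le_add_of_nonneg_right hε.le)
  refine le_of_mul_le_mul_left ?_ (by positivity : (0 : ℝ) < ((M + 1 : ℕ) : ℝ))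
  rw [hTV]
  linear_combination key

end Vale.Agent.P168
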