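import Vale.Agent.P168.Upper.Field
import Vale.Agent.P168.CavBound.Split
import Vale.Agent.P168.Truncate.Press

/-!
P168: with all elements mixed the recursion is the free energy of the system plus `T V`.
-/

open MeasureTheory ProbabilityTheory Filter Topology Real
open scoped NNReal

noncomputable section

namespace Vale.Agent.P168

variable {K N k r : ℕ}

/-- A clause, a position and sites. -/
abbrev MixElem (K N : ℕ) : Type := (Clause K × Fin K) × (Fin K → Fin N)

/-- The clause in the system: at the first position. -/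
def mixT (t : MixElem K N) : Term K N := (if (t.1.2 : ℕ) = 0 then t.1.1 else 0, t.2)

/-- The clause of messages: at the other positions. -/
def mixV (t : MixElem K N) : Clause K := if (t.1.2 : ℕ) = 0 then 0 else t.1.1

theorem measurable_mixV : Measurable (mixV (K := K) (N := N)) := by
  have h : MeasurableSet {t : MixElem K N | (t.1.2 : ℕ) = 0} :=
    (measurable_snd.comp measurable_fst) (MeasurableSet.of_discrete (s := {l : Fin K | (l : ℕ) = 0}))
  exact Measurable.ite h measurable_const (measurable_fst.comp measurable_fst)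

theorem measurable_mixT : Measurable (mixT (K := K) (N := N)) := by
  have h : MeasurableSet {t : MixElem K N | (t.1.2 : ℕ) = 0} :=
    (measurable_snd.comp measurable_fst) (MeasurableSet.of_discrete (s := {l : Fin K | (l : ℕ) = 0}))
  exact (Measurable.ite h (measurable_fst.comp measurable_fst) measurable_const).prodMk measurable_snd

theorem measurePreserving_mixOf (μ : Measure (Clause K)) [IsProbabilityMeasure μ] (hK : 0 < K)
    (hN : 0 < N) :
    MeasurePreserving (fun z : Root K N => ((z.1, fun l => (z.2 l).1), fun l => (z.2 l).2))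
      (rootMeas μ) (((μ.prod (unif (Fin K))).prod (unif (Fin K → Fin N))).prod
        (Measure.pi fun _ => u01)) := by
  have : Nonempty (Fin K) := ⟨⟨0, hK⟩⟩
  have : Nonempty (Fin N) := ⟨⟨0, hN⟩⟩
  have := isProbabilityMeasure_unif (Fin K)
  have := isProbabilityMeasure_unif (Fin N)
  set A := μ.prod (unif (Fin K))
  rw [← CavBound.pi_unif]
  exact (measurePreserving_prodAssoc A (Measure.pi fun _ : Fin K => unif (Fin N))
    (Measure.pi fun _ : Fin K => u01)).symm.comp ((MeasurePreserving.id A).prod
      (measurePreserving_arrowProdEquivProdArrow (Fin N) ℝ (Fin K) (fun _ => unif (Fin N))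
        (fun _ => u01)))

theorem facC_zero (v : Fin K → ℝ) : facC 0 v = 1 := by simp [facC, sum_msgW]

attribute [local irreducible] Vval in
/-- All elements mixed: the partition function times the variable `V`. -/
theorem leafY_top (x : (Fin (r + 1) → ℝ) → ℝ) (h : Fin N → ℝ) (z : Fin k → Root K N)
    (y : Fin r → Fin k → Fin K → ℝ) :
    leafY x h k z y =
      (∑ σ : Fin N → Bool,
        Real.exp (ham (fun i => mixT ((z i).1, fun l => ((z i).2 l).1)) h σ)) *
      Vval (fun i => mixV (N := N) ((z i).1, fun l => ((z i).2 l).1)) x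
        (Fin.cons (fun i l => ((z i).2 l).2) y) := by
  rw [Vval_eq, Finset.sum_mul]
  refine Finset.sum_congr rfl fun σ _ => ?_
  have e : (∏ i : Fin k, rootFac x (decide ((i : ℕ) < k)) (z i) (fun q => y q i) σ) =
      Real.exp (∑ j, (mixT ((z j).1, fun l => ((z j).2 l).1)).1 fun q => σ (((z j).2 q).1)) *
        ∏ j, facC (mixV (N := N) ((z j).1, fun l => ((z j).2 l).1))
          (msg x (Fin.cons (fun i l => ((z i).2 l).2) y) j) := by
    rw [exp_sum, ← Finset.prod_mul_distrib]
    refine Finset.prod_congr rfl fun i _ => ?_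
    simp only [rootFac, decide_eq_true i.isLt, if_true, facM, mixT, mixV, msg_cons]
    split_ifs with hl
    · rw [facC_zero, mul_one]
    · simp only [Pi.zero_apply, exp_zero, one_mul]
      rfl
  rw [ham, exp_add, e]
  unfold facC
  simp only [mixT]
  ring

attribute [local irreducible] leafY Vval logZ outerRec

variable (p : Param r)

theorem measurable_meanV (k : ℕ) :
    Measurable fun c : Fin k → Clause K => meanV p.m p.x c :=
  measurable_outerRec (Y := fun (c : Fin k → Clause K) ω => Vval c p.x ω) (measurable_Vval p.meas)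

/-- The mean of `log V₀` of one clause. -/
def oneV (θ : Clause K) : ℝ := meanV p.m p.x fun _ : Fin 1 => θ

theorem measurable_oneV : Measurable (oneV (K := K) p) :=
  (measurable_meanV p 1).comp (measurable_pi_lambda _ fun _ => measurable_id)

theorem abs_oneV_le (θ : Clause K) : |oneV p θ| ≤ ‖θ‖ := by
  simpa [oneV] using (meanV_compare p (fun _ : Fin 1 => θ) fun _ => θ).2

theorem oneV_zero : oneV (K := K) p 0 = 0 := abs_nonpos_iff.1 (by simpa using abs_oneV_le p (0 : Clause K))

/-- The mean of `log V₀` is additive over the clauses. -/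
theorem meanV_eq_sum : ∀ (k : ℕ) (c : Fin k → Clause K), meanV p.m p.x c = ∑ i, oneV p (c i)
  | 0, c => by
    have := (meanV_compare p c c).2
    simpa using abs_nonpos_iff.1 (by simpa using this)
  | k + 1, c => by
    suffices h : ∀ c : Fin (1 + k) → Clause K, meanV p.m p.x c = ∑ i, oneV p (c i) by
      have e : ∀ n, n = 1 + k → ∀ c : Fin n → Clause K,
          meanV p.m p.x c = ∑ i, oneV p (c i) := by
        rintro n rfl
        exact h
      exact e _ (add_comm _ _) c
    intro c
    rw [Fin.sum_univ_add, Fin.sum_univ_one, ← meanV_eq_sum k fun i => c (Fin.natAdd 1 i)]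
    set c1 : Fin 1 → Clause K := fun i => c (Fin.castAdd k i)
    set c2 : Fin k → Clause K := fun i => c (Fin.natAdd 1 i)
    have e1 : oneV p (c (Fin.castAdd k 0)) = outerRec (lvl 1 K) p.m (Vval c1 p.x) := by
      unfold oneV meanV
      congr 2
      funext i
      simp [c1, Subsingleton.elim i 0]
    rw [e1]
    set B := (∑ i, ‖c1 i‖) + ∑ i, ‖c2 i‖
    have m1 : Measurable (Vval c1 p.x) :=
      (measurable_Vval p.meas).comp (measurable_prodMk_left (x := c1))
    have m2 : Measurable (Vval c2 p.x) :=
      (measurable_Vval p.meas).comp (measurable_prodMk_left (x := c2))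
    have hb : ∀ {n : ℕ} (d : Fin n → Clause K) ω, ∑ i, ‖d i‖ ≤ B →
        Real.exp (-B) ≤ Vval d p.x ω ∧ Vval d p.x ω ≤ Real.exp B := fun d ω hd => by
      have h0 := (Vval_compare p.range d d ω).1
      have h1 := abs_le.1 ((abs_log_Vval p.range d ω).trans hd)
      exact ⟨(le_log_iff_exp_le h0).1 h1.1, (log_le_iff_le_exp h0).1 h1.2⟩
    have hB1 : ∑ i, ‖c1 i‖ ≤ B := le_add_of_nonneg_right (Finset.sum_nonneg fun _ _ => norm_nonneg _)
    have hB2 : ∑ i, ‖c2 i‖ ≤ B := le_add_of_nonneg_left (Finset.sum_nonneg fun _ _ => norm_nonneg _)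
    unfold meanV
    rw [← outerRec_prod (ν := lvl 1 K) (ν' := lvl k K) p.pos m1 m2 (fun ω => hb c1 ω hB1)
      (fun ω => hb c2 ω hB2), ← outerRec_map (measurePreserving_splitCol 1 k K) (ν := lvl (1 + k) K)
        (Y := fun w => Vval c1 p.x (fun q => (w q).1) * Vval c2 p.x fun q => (w q).2)
        ((m1.comp (measurable_pi_lambda _ fun q => measurable_fst.comp (measurable_pi_apply q))).mul
          (m2.comp (measurable_pi_lambda _ fun q => measurable_snd.comp (measurable_pi_apply q))))]
    congr 1
    funext ω
    rw [Vval_eq, Vval_eq, Vval_eq, Fin.prod_univ_add]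
    rfl

/-- The recursion with all elements mixed. -/
theorem interpRec_top (μ : Measure (Clause K)) [IsProbabilityMeasure μ] (hK : 0 < K)
    (hN : 0 < N) (hθ : Integrable (fun θ : Clause K => ‖θ‖) μ) (h : Fin N → ℝ) (k : ℕ) :
    interpRec μ p.m p.x h k k = ∫ d : Fin k → MixElem K N,
        logZ (fun i => mixT (d i)) h + meanV p.m p.x (fun i => mixV (d i))
      ∂(Measure.pi fun _ => (μ.prod (unif (Fin K))).prod (unif (Fin K → Fin N))) := by
  have : Nonempty (Fin K) := ⟨⟨0, hK⟩⟩
  have : Nonempty (Fin N) := ⟨⟨0, hN⟩⟩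
  have := isProbabilityMeasure_unif (Fin K)
  have := isProbabilityMeasure_unif (Fin N)
  have := isProbabilityMeasure_unif (Fin K → Fin N)
  set T := (μ.prod (unif (Fin K))).prod (unif (Fin K → Fin N))
  have hR : IsProbabilityMeasure (rootMeas (N := N) μ) := by unfold rootMeas; infer_instance
  have hmp : MeasurePreserving (fun z : Fin k → Root K N =>
      ((fun i => ((z i).1, fun l => ((z i).2 l).1)), fun i l => ((z i).2 l).2))
      (Measure.pi fun _ => rootMeas μ) ((Measure.pi fun _ => T).prod (lvl k K)) :=
    (measurePreserving_arrowProdEquivProdArrow (MixElem K N) (Fin K → ℝ) (Fin k)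
      (fun _ => T) (fun _ => Measure.pi fun _ => u01)).comp
      (measurePreserving_pi _ _ fun _ => measurePreserving_mixOf μ hK hN)
  set R : (Fin k → MixElem K N) × (Fin k → Fin K → ℝ) → ℝ := fun q => Real.log
    (rpowRec (lvl k K) r p.m fun y => Vval (fun i => mixV (q.1 i)) p.x (Fin.cons q.2 y))
  have mcV : Measurable fun d : Fin k → MixElem K N => fun i => mixV (d i) :=
    measurable_pi_lambda _ fun i => measurable_mixV.comp (measurable_pi_apply i)
  have mR : Measurable R := by
    have h1 : Measurable fun q : ((Fin k → MixElem K N) × (Fin k → Fin K → ℝ)) ×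
        (Fin r → Fin k → Fin K → ℝ) => Vval (fun i => mixV (q.1.1 i)) p.x (Fin.cons q.1.2 q.2) :=
      (measurable_Vval p.meas).comp ((mcV.comp (measurable_fst.comp measurable_fst)).prodMk
        (measurable_finCons.comp ((measurable_snd.comp measurable_fst).prodMk measurable_snd)))
    exact measurable_log.comp (measurable_rpowRec r p.m (Y := fun
      (q : (Fin k → MixElem K N) × (Fin k → Fin K → ℝ)) y =>
        Vval (fun i => mixV (q.1 i)) p.x (Fin.cons q.2 y)) h1)
  have hnV : ∀ t : MixElem K N, ‖mixV t‖ ≤ ‖t.1.1‖ := fun t => by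
    unfold mixV; split_ifs <;> simp
  have hnT : ∀ t : MixElem K N, ‖(mixT t).1‖ ≤ ‖t.1.1‖ := fun t => by
    unfold mixT; split_ifs <;> simp
  have hVb : ∀ d : Fin k → MixElem K N, ∀ ω,
      0 < Vval (fun i => mixV (d i)) p.x ω ∧
        |Real.log (Vval (fun i => mixV (d i)) p.x ω)| ≤ ∑ i, ‖(d i).1.1‖ := fun d ω =>
    ⟨(Vval_compare p.range (fun i => mixV (d i)) (fun i => mixV (d i)) ω).1,
      (abs_log_Vval p.range _ ω).trans (Finset.sum_le_sum fun i _ => hnV _)⟩
  have mV : ∀ d : Fin k → MixElem K N, Measurable (Vval (fun i => mixV (d i)) p.x) := fun d =>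
    (measurable_Vval p.meas).comp (measurable_prodMk_left (x := fun i => mixV (d i)))
  set F : (Fin k → MixElem K N) × (Fin k → Fin K → ℝ) → ℝ := fun q =>
    logZ (fun i => mixT (q.1 i)) h + R q
  have mF : Measurable F :=
    (measurable_logZ.comp (((measurable_pi_lambda _ fun i => measurable_mixT.comp
      (measurable_pi_apply i)).comp measurable_fst).prodMk measurable_const)).add mR
  have hD : Integrable (fun t : MixElem K N => ‖t.1.1‖) T := (hθ.comp_fst _).comp_fst _
  have hS := (integral_pi_sum (k := k) hD).1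
  have hF : Integrable F ((Measure.pi fun _ => T).prod (lvl k K)) := by
    refine (((integrable_const ((N : ℝ) * Real.log 2 + ∑ i, |h i|)).add
      (hS.const_mul 2)).comp_fst _).mono' mF.aestronglyMeasurable (ae_of_all _ fun q => ?_)
    have h1 := abs_le.1 (abs_logZ_sub_log (fun i => mixT (q.1 i)) h)
    have h1' : ∑ i, ‖(mixT (q.1 i)).1‖ ≤ ∑ i, ‖(q.1 i).1.1‖ := Finset.sum_le_sum fun i _ => hnT _
    have h2 := abs_le.1 (abs_log_rpowRec (ν := lvl k K) p.pos
      ((mV q.1).comp (measurable_finCons_right q.2)) fun w => hVb q.1 _)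
    have h3 : 0 ≤ (N : ℝ) * Real.log 2 := by positivity
    simp only [Function.comp_def] at h2
    simp only [Real.norm_eq_abs, F, R, Pi.add_apply]
    exact abs_le.2 ⟨by linarith, by linarith⟩
  calc interpRec μ p.m p.x h k k
      = ∫ z : Fin k → Root K N, F ((fun i => ((z i).1, fun l => ((z i).2 l).1)),
          fun i l => ((z i).2 l).2) ∂(Measure.pi fun _ => rootMeas μ) := by
        refine integral_congr_ae (ae_of_all _ fun z => ?_)
        set d : Fin k → MixElem K N := fun i => ((z i).1, fun l => ((z i).2 l).1)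
        set w : Fin k → Fin K → ℝ := fun i l => ((z i).2 l).2
        have mW := (mV d).comp (measurable_finCons_right w)
        have hZ : 0 < ∑ σ : Fin N → Bool, Real.exp (ham (fun i => mixT (d i)) h σ) :=
          Finset.sum_pos (fun _ _ => exp_pos _) Finset.univ_nonempty
        have hW : ∀ y, Real.exp (-∑ i, ‖(d i).1.1‖) ≤ Vval (fun i => mixV (d i)) p.x (Fin.cons w y) ∧
            Vval (fun i => mixV (d i)) p.x (Fin.cons w y) ≤ Real.exp (∑ i, ‖(d i).1.1‖) := fun y =>
          ⟨(le_log_iff_exp_le (hVb d _).1).1 (abs_le.1 (hVb d _).2).1,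
            (log_le_iff_le_exp (hVb d _).1).1 (abs_le.1 (hVb d _).2).2⟩
        have e := rpowRec_const_mul (ν := lvl k K) p.pos hZ mW (exp_pos _) hW
        show Real.log (rpowRec (lvl k K) r p.m (leafY p.x h k z)) = logZ _ h + R _
        rw [funext fun y => leafY_top p.x h z y]
        erw [e]
        rw [log_mul hZ.ne' ((exp_pos _).trans_le (rpowRec_mem r p.m p.pos mW (exp_pos _) hW).1).ne']
        unfold logZ
        rfl
    _ = ∫ q, F q ∂((Measure.pi fun _ => T).prod (lvl k K)) := by
        rw [← hmp.map_eq, integral_map hmp.measurable.aemeasurable mF.aestronglyMeasurable]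
    _ = _ := by
        rw [integral_prod _ hF]
        refine integral_congr_ae (ae_of_all _ fun d => ?_)
        have i1 : Integrable (fun w => R (d, w)) (lvl k K) :=
          Integrable.of_bound (mR.comp measurable_prodMk_left).aestronglyMeasurable
            (∑ i, ‖(d i).1.1‖) (ae_of_all _ fun w => abs_log_rpowRec p.pos
              ((mV d).comp (measurable_finCons_right w)) fun y => hVb d _)
        simp only [F]
        rw [integral_add (integrable_const _) i1, integral_const, probReal_univ, one_smul]
        simp only [R, meanV, outerRec]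

end Vale.Agent.P168
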