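import Vale.Agent.P168.Upper.Swap

/-!
P168: the moments of the balance are nonnegative: replicas turn them into sums of
`x ^ K + (K - 1) y ^ K - K x y ^ (K - 1)`.
-/

open MeasureTheory ProbabilityTheory Filter Topology Real
open scoped NNReal

noncomputable section

namespace Vale.Agent.P168

variable {K N : ℕ} {S : Type} [Fintype S] {Ξ : Type} [MeasurableSpace Ξ] (g : S → ℝ)
  (σ : S → Fin N → Bool) (X : S → Ξ → ℝ)

/-- A power of an averaged product as a sum over replicas. -/
theorem pow_sum_prod {m : ℕ} (G : S → Fin K → ℝ) :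
    (∑ s, g s * ∏ j, G s j) ^ m =
      ∑ t : Fin m → S, (∏ r, g (t r)) * ∏ j, ∏ r, G (t r) j := by
  rw [Fintype.sum_pow]
  exact Finset.sum_congr rfl fun t _ => by rw [Finset.prod_mul_distrib, Finset.prod_comm]

/-- The replica product at a site of the system. -/
def repA {m : ℕ} (t : Fin m → S) (p : (Bool → ℝ) × (Fin N × Ξ)) : ℝ := ∏ r, p.1 (σ (t r) p.2.1)

/-- The replica product at a message. -/
def repC {m : ℕ} (t : Fin m → S) (p : (Bool → ℝ) × (Fin N × Ξ)) : ℝ :=
  ∏ r, fbar p.1 (X (t r) p.2.2)

omit [Fintype S] in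
theorem measurable_repA {m : ℕ} (t : Fin m → S) : Measurable (repA (Ξ := Ξ) σ t) := by
  refine Finset.measurable_prod _ fun r _ => ?_
  have h : Measurable fun q : (Bool → ℝ) × Fin N => q.1 (σ (t r) q.2) :=
    measurable_from_prod_countable_left fun i =>
      measurable_pi_apply (X := fun _ : Bool => ℝ) (σ (t r) i)
  exact h.comp (measurable_fst.prodMk (measurable_fst.comp measurable_snd))

variable (hXm : ∀ s, Measurable (X s))
include hXm

omit [Fintype S] in
theorem measurable_repC {m : ℕ} (t : Fin m → S) : Measurable (repC (N := N) X t) := by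
  refine Finset.measurable_prod _ fun r _ => ?_
  have hy : Measurable fun p : (Bool → ℝ) × (Fin N × Ξ) => X (t r) p.2.2 :=
    (hXm _).comp (measurable_snd.comp measurable_snd)
  unfold fbar
  exact ((measurable_fst.eval).mul ((hy.const_add 1).div_const 2)).add
    ((measurable_fst.eval).mul ((hy.const_sub 1).div_const 2))

theorem measurable_bal {φ : ℝ → ℝ} (hφ : Measurable φ) :
    Measurable fun w : (Fin K → Bool → ℝ) × Slots K N Ξ => bal g σ X w.1 φ w.2 := by
  have hA : ∀ s j, Measurable fun w : (Fin K → Bool → ℝ) × Slots K N Ξ =>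
      w.1 j (σ s (w.2 j).1) := fun s j => by
    have h : Measurable fun q : (Bool → ℝ) × Fin N => q.1 (σ s q.2) :=
      measurable_from_prod_countable_left fun i =>
        measurable_pi_apply (X := fun _ : Bool => ℝ) (σ s i)
    have h1 : Measurable fun w : (Fin K → Bool → ℝ) × Slots K N Ξ => (w.1 j, (w.2 j).1) :=
      ((measurable_pi_apply j).comp measurable_fst).prodMk
        (measurable_fst.comp ((measurable_pi_apply j).comp measurable_snd))
    exact h.comp h1
  have hC : ∀ s j, Measurable fun w : (Fin K → Bool → ℝ) × Slots K N Ξ =>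
      fbar (w.1 j) (X s (w.2 j).2) := fun s j => by
    have hy : Measurable fun w : (Fin K → Bool → ℝ) × Slots K N Ξ => X s (w.2 j).2 :=
      (hXm s).comp (measurable_snd.comp measurable_snd.eval)
    unfold fbar
    have hF : ∀ b, Measurable fun w : (Fin K → Bool → ℝ) × Slots K N Ξ => w.1 j b := fun b =>
      measurable_fst.eval.eval
    exact ((hF true).mul ((hy.const_add 1).div_const 2)).add
      ((hF false).mul ((hy.const_sub 1).div_const 2))
  unfold bal uA uC uB
  refine (((hφ.comp (Finset.measurable_sum _ fun s _ =>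
    (Finset.measurable_prod _ fun j _ => hA s j).const_mul _)).add
    ((hφ.comp (Finset.measurable_sum _ fun s _ =>
      (Finset.measurable_prod _ fun j _ => hC s j).const_mul _)).const_mul _)).sub
    (Finset.measurable_sum _ fun l _ => hφ.comp (Finset.measurable_sum _ fun s _ =>
      (Finset.measurable_prod _ fun j _ => ?_).const_mul _))).div_const _
  by_cases hj : j = l <;> simp only [hj, if_true, if_false]
  · exact hA s l
  · exact hC s j

variable (hg : ∀ s, 0 ≤ g s) (hg1 : ∑ s, g s = 1)
  (hX : ∀ s ξ, X s ξ ∈ Set.Icc (-1 : ℝ) 1)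
include hg hg1 hX

omit hg1 in
/-- The mean of a power balance is nonnegative. -/
theorem integral_bal_pow_nonneg (hK : Even K) (hK0 : 0 < K) (ρ : Measure (Bool → ℝ))
    [IsProbabilityMeasure ρ] (hρ : ∀ᵐ F ∂ρ, ∀ s, F s ∈ Set.Icc (-1 : ℝ) 1)
    (ν : Measure (Fin N × Ξ)) [IsProbabilityMeasure ν] (m : ℕ) :
    0 ≤ ∫ q : Fin K → (Bool → ℝ) × (Fin N × Ξ),
      bal g σ X (fun j => (q j).1) (fun u => u ^ m) (fun j => (q j).2)
      ∂(Measure.pi fun _ => ρ.prod ν) := by
  classical
  set μ := ρ.prod ν
  have hb : ∀ᵐ p ∂μ, ∀ s, p.1 s ∈ Set.Icc (-1 : ℝ) 1 :=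
    Measure.quasiMeasurePreserving_fst.ae hρ
  have hA : ∀ t : Fin m → S, Integrable (repA σ t) μ := fun t =>
    Integrable.of_bound (measurable_repA σ t).aestronglyMeasurable 1 (hb.mono fun p hp => by
      rw [Real.norm_eq_abs, repA, Finset.abs_prod]
      exact Finset.prod_le_one (fun _ _ => abs_nonneg _) fun r _ => abs_le.2 (hp _))
  have hC : ∀ t : Fin m → S, Integrable (repC X t) μ := fun t =>
    Integrable.of_bound (measurable_repC X hXm t).aestronglyMeasurable 1 (hb.mono fun p hp => by
      rw [Real.norm_eq_abs, repC, Finset.abs_prod]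
      exact Finset.prod_le_one (fun _ _ => abs_nonneg _) fun r _ => abs_fbar_le hp (hX _ _))
  set mix : Option (Fin K) → (Fin m → S) → Fin K → (Bool → ℝ) × (Fin N × Ξ) → ℝ :=
    fun o t j => if o = some j then repA σ t else repC X t
  have hmix : ∀ o t j, Integrable (mix o t j) μ := fun o t j => by
    simp only [mix]; split_ifs <;> [exact hA t; exact hC t]
  have hpt : ∀ q : Fin K → (Bool → ℝ) × (Fin N × Ξ),
      bal g σ X (fun j => (q j).1) (fun u => u ^ m) (fun j => (q j).2) =
        ∑ t : Fin m → S, (∏ r, g (t r)) * (((∏ j, repA σ t (q j)) +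
          ((K : ℝ) - 1) * (∏ j, mix none t j (q j)) -
          ∑ l, ∏ j, mix (some l) t j (q j)) / K) := fun q => by
    have e : ∀ (l : Fin K) (t : Fin m → S) j, (∏ r, if j = l then (q j).1 (σ (t r) (q j).2.1)
        else fbar (q j).1 (X (t r) (q j).2.2)) = mix (some l) t j (q j) := fun l t j => by
      simp only [mix, Option.some.injEq]
      by_cases hj : j = l
      · subst hj; simp [repA]
      · simp [hj, Ne.symm hj, repC]
    simp only [bal, uA, uC, uB, pow_sum_prod, e]
    simp only [mix, repA, repC, reduceCtorEq, if_false, Finset.mul_sum, mul_div_assoc',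
      Finset.sum_comm (γ := Fin K)]
    simp only [← Finset.sum_add_distrib, ← Finset.sum_sub_distrib, Finset.sum_div]
    refine Finset.sum_congr rfl fun t _ => ?_
    rw [← Finset.mul_sum]
    ring
  have hi : ∀ o t, Integrable (fun q : Fin K → (Bool → ℝ) × (Fin N × Ξ) => ∏ j, mix o t j (q j))
      (Measure.pi fun _ => μ) := fun o t => Integrable.fintype_prod fun j => hmix o t j
  have hiA : ∀ t, Integrable (fun q : Fin K → (Bool → ℝ) × (Fin N × Ξ) => ∏ j, repA σ t (q j))
      (Measure.pi fun _ => μ) := fun t => Integrable.fintype_prod fun j => hA t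
  simp only [hpt]
  have hiT : ∀ t : Fin m → S, Integrable (fun q : Fin K → (Bool → ℝ) × (Fin N × Ξ) =>
      (∏ r, g (t r)) * (((∏ j, repA σ t (q j)) + ((K : ℝ) - 1) * (∏ j, mix none t j (q j)) -
        ∑ l, ∏ j, mix (some l) t j (q j)) / K)) (Measure.pi fun _ => μ) := fun t =>
    ((((hiA t).add ((hi none t).const_mul _)).sub
      (integrable_finsetSum _ fun l _ => hi _ t)).div_const _).const_mul _
  rw [integral_finsetSum _ fun t _ => hiT t]
  refine Finset.sum_nonneg fun t _ => ?_
  have hAC : Integrable (fun q : Fin K → (Bool → ℝ) × (Fin N × Ξ) =>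
      (∏ j, repA σ t (q j)) + ((K : ℝ) - 1) * ∏ j, mix none t j (q j)) (Measure.pi fun _ => μ) :=
    (hiA t).add ((hi none t).const_mul _)
  rw [integral_const_mul, integral_div,
    integral_sub hAC (integrable_finsetSum _ fun l _ => hi _ t),
    integral_add (hiA t) ((hi none t).const_mul _), integral_const_mul,
    integral_finsetSum _ fun l _ => hi _ t, integral_fintype_prod_eq_prod,
    integral_fintype_prod_eq_prod]
  simp only [integral_fintype_prod_eq_prod]
  set A := ∫ p, repA σ t p ∂μ
  set C := ∫ p, repC X t p ∂μ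
  have e : ∀ l : Fin K, ∏ j, ∫ p, mix (some l) t j p ∂μ = A * C ^ (K - 1) := fun l => by
    rw [← Finset.mul_prod_erase _ _ (Finset.mem_univ l), Finset.prod_congr rfl fun j hj => show
      ∫ p, mix (some l) t j p ∂μ = C by
        simp only [mix, Option.some.injEq, Ne.symm (Finset.ne_of_mem_erase hj), if_false, C]]
    simp [mix, A]
  simp only [e, mix, reduceCtorEq, if_false, Finset.prod_const, Finset.sum_const, Finset.card_univ,
    Fintype.card_fin, nsmul_eq_mul, C]
  exact mul_nonneg (Finset.prod_nonneg fun r _ => hg _)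
    (div_nonneg (even_power_nonneg hK hK0 A C) (Nat.cast_nonneg K))

end Vale.Agent.P168
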