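import Vale.Agent.P168.Truncate.Trial

/-!
P168: the recursion under changes of variables and over independent blocks of columns.
-/

open MeasureTheory ProbabilityTheory Filter Topology Real
open scoped NNReal

noncomputable section

namespace Vale.Agent.P168

section
variable {X X' : Type} [MeasurableSpace X] [MeasurableSpace X'] {ν : Measure X} {ν' : Measure X'}
  [IsProbabilityMeasure ν] [IsProbabilityMeasure ν']

/-- Independent blocks multiply. -/
theorem rpowRec_prod : ∀ (r : ℕ) (m : Fin r → ℝ), (∀ p, 0 < m p) →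
    ∀ {Y : (Fin r → X) → ℝ} {Y' : (Fin r → X') → ℝ}, Measurable Y → Measurable Y' →
    ∀ {a b : ℝ}, 0 < a → (∀ w, a ≤ Y w ∧ Y w ≤ b) → (∀ w, a ≤ Y' w ∧ Y' w ≤ b) →
    rpowRec (ν.prod ν') r m (fun w => Y (fun p => (w p).1) * Y' (fun p => (w p).2)) =
      rpowRec ν r m Y * rpowRec ν' r m Y'
  | 0, m, hm, Y, Y', _, _, a, b, _, _, _ => by
    show Y _ * Y' _ = Y Fin.elim0 * Y' Fin.elim0
    congr 2 <;> exact Subsingleton.elim _ _
  | r + 1, m, hm, Y, Y', hY, hY', a, b, ha, hb, hb' => by
    have h1 : ∀ (x : X × X') (y : Fin r → X × X'),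
        (fun p => (Fin.cons (α := fun _ => X × X') x y p).1) =
          (Fin.cons x.1 fun p => (y p).1 : Fin (r + 1) → X) :=
      fun x y => funext fun p => Fin.cases rfl (fun i => rfl) p
    have h2 : ∀ (x : X × X') (y : Fin r → X × X'),
        (fun p => (Fin.cons (α := fun _ => X × X') x y p).2) =
          (Fin.cons x.2 fun p => (y p).2 : Fin (r + 1) → X') :=
      fun x y => funext fun p => Fin.cases rfl (fun i => rfl) p
    have hs := fun x : X => rpowRec_mem (ν := ν) r (fun p => m p.succ) (fun p => hm _)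
      (hY.comp (measurable_finCons_right x)) ha fun z => hb _
    have hs' := fun x : X' => rpowRec_mem (ν := ν') r (fun p => m p.succ) (fun p => hm _)
      (hY'.comp (measurable_finCons_right x)) ha fun z => hb' _
    simp only [rpowRec, h1, h2]
    rw [integral_congr_ae (g := fun q : X × X' =>
      rpowRec ν r (fun p => m p.succ) (fun z => Y (Fin.cons q.1 z)) ^ m 0 *
        rpowRec ν' r (fun p => m p.succ) (fun z => Y' (Fin.cons q.2 z)) ^ m 0) (ae_of_all _ fun q => by
      dsimp only
      rw [rpowRec_prod r (fun p => m p.succ) (fun p => hm _) (Y := fun z => Y (Fin.cons q.1 z))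
        (Y' := fun z => Y' (Fin.cons q.2 z)) (hY.comp (measurable_finCons_right q.1))
        (hY'.comp (measurable_finCons_right q.2)) ha (fun z => hb _) fun z => hb' _]
      exact mul_rpow (ha.le.trans (hs q.1).1) (ha.le.trans (hs' q.2).1)), integral_prod_mul
        (fun x => rpowRec ν r (fun p => m p.succ) (fun z => Y (Fin.cons x z)) ^ m 0)
        fun x => rpowRec ν' r (fun p => m p.succ) (fun z => Y' (Fin.cons x z)) ^ m 0]
    exact mul_rpow (integral_nonneg fun x => rpow_nonneg (ha.le.trans (hs x).1) _)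
      (integral_nonneg fun x => rpow_nonneg (ha.le.trans (hs' x).1) _)

omit [IsProbabilityMeasure ν] in
/-- A change of variables. -/
theorem rpowRec_map {g : X → X'} (hg : MeasurePreserving g ν ν') :
    ∀ (r : ℕ) (m : Fin r → ℝ) {Y : (Fin r → X') → ℝ}, Measurable Y →
    rpowRec ν r m (fun w => Y fun p => g (w p)) = rpowRec ν' r m Y
  | 0, m, Y, _ => congrArg Y (Subsingleton.elim _ _)
  | r + 1, m, Y, hY => by
    have h1 : ∀ (x : X) (y : Fin r → X), (fun p => g (Fin.cons (α := fun _ => X) x y p)) =
        (Fin.cons (g x) fun p => g (y p) : Fin (r + 1) → X') :=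
      fun x y => funext fun p => Fin.cases rfl (fun i => rfl) p
    simp only [rpowRec, h1]
    rw [integral_congr_ae (g := fun x =>
      rpowRec ν' r (fun p => m p.succ) (fun z => Y (Fin.cons (g x) z)) ^ m 0) (ae_of_all _ fun x => by
      dsimp only
      rw [rpowRec_map hg r _ (Y := fun z => Y (Fin.cons (g x) z))
        (hY.comp (measurable_finCons_right (g x)))]),
      ← integral_map hg.measurable.aemeasurable
        (((measurable_rpowRec r _ (Y := fun x z => Y (Fin.cons x z))
          (hY.comp measurable_finCons)).pow_const _).aestronglyMeasurable), hg.map_eq]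

/-- A constant factor comes out. -/
theorem rpowRec_const_mul {r : ℕ} {m : Fin r → ℝ} (hm : ∀ p, 0 < m p) {c : ℝ} (hc : 0 < c)
    {Y : (Fin r → X) → ℝ} (hY : Measurable Y) {a b : ℝ} (ha : 0 < a)
    (hb : ∀ w, a ≤ Y w ∧ Y w ≤ b) :
    rpowRec ν r m (fun w => c * Y w) = c * rpowRec ν r m Y := by
  have h0 : ∀ w, 0 < Y w := fun w => ha.trans_le (hb w).1
  have hbb : ∀ w, min a (c * a) ≤ Y w ∧ Y w ≤ max b (c * b) := fun w =>
    ⟨(min_le_left _ _).trans (hb w).1, (hb w).2.trans (le_max_left _ _)⟩
  have hbc : ∀ w, min a (c * a) ≤ c * Y w ∧ c * Y w ≤ max b (c * b) := fun w =>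
    ⟨(min_le_right _ _).trans (mul_le_mul_of_nonneg_left (hb w).1 hc.le),
      (mul_le_mul_of_nonneg_left (hb w).2 hc.le).trans (le_max_right _ _)⟩
  have hp : 0 < min a (c * a) := lt_min ha (mul_pos hc ha)
  refine le_antisymm (rpowRec_le_mul r m hm (hY.const_mul c) hY hp hc hbc hbb fun w => le_rfl) ?_
  have := rpowRec_le_mul (ν := ν) r m hm hY (hY.const_mul c) hp (inv_pos.2 hc) hbb hbc fun w => by
    rw [← mul_assoc, inv_mul_cancel₀ hc.ne', one_mul]
  rwa [le_inv_mul_iff₀ hc] at this

variable {r : ℕ} {m : Fin r → ℝ}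

omit [IsProbabilityMeasure ν] in
theorem outerRec_map {g : X → X'} (hg : MeasurePreserving g ν ν') {Y : (Fin (r + 1) → X') → ℝ}
    (hY : Measurable Y) : outerRec ν m (fun w => Y fun p => g (w p)) = outerRec ν' m Y := by
  have h1 : ∀ (x : X) (y : Fin r → X), (fun p => g (Fin.cons (α := fun _ => X) x y p)) =
      (Fin.cons (g x) fun p => g (y p) : Fin (r + 1) → X') :=
    fun x y => funext fun p => Fin.cases rfl (fun i => rfl) p
  simp only [outerRec, h1]
  rw [integral_congr_ae (g := fun x =>
    Real.log (rpowRec ν' r m fun z => Y (Fin.cons (g x) z))) (ae_of_all _ fun x => by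
    dsimp only
    rw [rpowRec_map hg r _ (Y := fun z => Y (Fin.cons (g x) z))
      (hY.comp (measurable_finCons_right (g x)))]),
    ← integral_map (f := fun x : X' => Real.log (rpowRec ν' r m fun z => Y (Fin.cons x z)))
      hg.measurable.aemeasurable
      ((measurable_log.comp (measurable_rpowRec r _ (Y := fun x z => Y (Fin.cons x z))
        (hY.comp measurable_finCons))).aestronglyMeasurable), hg.map_eq]

theorem outerRec_prod (hm : ∀ p, 0 < m p) {Y : (Fin (r + 1) → X) → ℝ}
    {Y' : (Fin (r + 1) → X') → ℝ} (hY : Measurable Y) (hY' : Measurable Y')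
    {B : ℝ} (hb : ∀ w, Real.exp (-B) ≤ Y w ∧ Y w ≤ Real.exp B)
    (hb' : ∀ w, Real.exp (-B) ≤ Y' w ∧ Y' w ≤ Real.exp B) :
    outerRec (ν.prod ν') m (fun w => Y (fun p => (w p).1) * Y' (fun p => (w p).2)) =
      outerRec ν m Y + outerRec ν' m Y' := by
  have h1 : ∀ (x : X × X') (y : Fin r → X × X'),
      (fun p => (Fin.cons (α := fun _ => X × X') x y p).1) =
        (Fin.cons x.1 fun p => (y p).1 : Fin (r + 1) → X) :=
    fun x y => funext fun p => Fin.cases rfl (fun i => rfl) p
  have h2 : ∀ (x : X × X') (y : Fin r → X × X'),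
      (fun p => (Fin.cons (α := fun _ => X × X') x y p).2) =
        (Fin.cons x.2 fun p => (y p).2 : Fin (r + 1) → X') :=
    fun x y => funext fun p => Fin.cases rfl (fun i => rfl) p
  set R : X → ℝ := fun x => rpowRec ν r m fun z => Y (Fin.cons x z)
  set R' : X' → ℝ := fun x => rpowRec ν' r m fun z => Y' (Fin.cons x z)
  have hR := fun x : X => rpowRec_mem (ν := ν) r m hm
    (hY.comp (measurable_finCons_right x)) (exp_pos _) fun z => hb _
  have hR' := fun x : X' => rpowRec_mem (ν := ν') r m hm
    (hY'.comp (measurable_finCons_right x)) (exp_pos _) fun z => hb' _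
  have hl : ∀ {t : ℝ}, Real.exp (-B) ≤ t → t ≤ Real.exp B → |Real.log t| ≤ B := fun {t} h h' =>
    abs_le.2 ⟨(le_log_iff_exp_le ((exp_pos _).trans_le h)).2 h,
      (log_le_iff_le_exp ((exp_pos _).trans_le h)).2 h'⟩
  have i1 : Integrable (fun x => Real.log (R x)) ν := Integrable.of_bound
    ((measurable_log.comp (measurable_rpowRec r m (Y := fun x z => Y (Fin.cons x z))
      (hY.comp measurable_finCons))).aestronglyMeasurable) B
    (ae_of_all _ fun x => hl (hR x).1 (hR x).2)
  have i2 : Integrable (fun x => Real.log (R' x)) ν' := Integrable.of_bound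
    ((measurable_log.comp (measurable_rpowRec r m (Y := fun x z => Y' (Fin.cons x z))
      (hY'.comp measurable_finCons))).aestronglyMeasurable) B
    (ae_of_all _ fun x => hl (hR' x).1 (hR' x).2)
  simp only [outerRec, h1, h2]
  rw [integral_congr_ae (g := fun q : X × X' => Real.log (R q.1) + Real.log (R' q.2))
    (ae_of_all _ fun q => by
      dsimp only
      rw [rpowRec_prod r m hm (Y := fun z => Y (Fin.cons q.1 z)) (Y' := fun z => Y' (Fin.cons q.2 z))
        (hY.comp (measurable_finCons_right q.1)) (hY'.comp (measurable_finCons_right q.2))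
        (exp_pos (-B)) (fun z => hb _) fun z => hb' _]
      exact log_mul ((exp_pos _).trans_le (hR q.1).1).ne' ((exp_pos _).trans_le (hR' q.2).1).ne'),
    integral_add (i1.comp_fst _) (i2.comp_snd _), integral_fun_fst (μ := ν) (ν := ν')
      (fun x => Real.log (R x)), integral_fun_snd (μ := ν) (ν := ν') (fun x => Real.log (R' x)),
    probReal_univ, probReal_univ, one_smul, one_smul]

end

/-- The columns of a concatenation, as a pair. -/
def splitCol (a b K : ℕ) (w : Fin (a + b) → Fin K → ℝ) :
    (Fin a → Fin K → ℝ) × (Fin b → Fin K → ℝ) :=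
  (fun i => w (Fin.castAdd b i), fun i => w (Fin.natAdd a i))

theorem measurePreserving_splitCol (a b K : ℕ) :
    MeasurePreserving (splitCol a b K) (lvl (a + b) K) ((lvl a K).prod (lvl b K)) := by
  have h1 := (measurePreserving_piCongrLeft (fun _ : Fin (a + b) =>
    Measure.pi fun _ : Fin K => u01) finSumFinEquiv).symm
  have h2 := measurePreserving_sumPiEquivProdPi
    (μ := fun _ : Fin a ⊕ Fin b => Measure.pi fun _ : Fin K => u01)
  have e : splitCol a b K = fun w => MeasurableEquiv.sumPiEquivProdPi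
      (fun _ : Fin a ⊕ Fin b => Fin K → ℝ)
      ((MeasurableEquiv.piCongrLeft (fun _ : Fin (a + b) => Fin K → ℝ) finSumFinEquiv).symm w) := by
    funext w
    refine Prod.ext (funext fun i => ?_) (funext fun i => ?_) <;>
      simp [splitCol, MeasurableEquiv.piCongrLeft, MeasurableEquiv.sumPiEquivProdPi,
        Equiv.sumPiEquivProdPi, Equiv.piCongrLeft]
  rw [e]
  exact h2.comp h1

theorem measurePreserving_permCol {k K : ℕ} (e : Equiv.Perm (Fin k)) :
    MeasurePreserving (fun (w : Fin k → Fin K → ℝ) i => w (e i)) (lvl k K) (lvl k K) := by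
  have h := (measurePreserving_piCongrLeft (fun _ : Fin k =>
    Measure.pi fun _ : Fin K => u01) e).symm
  have e' : (fun (w : Fin k → Fin K → ℝ) i => w (e i)) =
      fun w => (MeasurableEquiv.piCongrLeft (fun _ : Fin k => Fin K → ℝ) e).symm w := by
    funext w i
    simp [MeasurableEquiv.piCongrLeft, Equiv.piCongrLeft]
  rw [e']
  exact h

end Vale.Agent.P168
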