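import Vale.Agent.P168.Upper.SwapClass

/-!
P168: one more mixed element in a list of independent elements lowers the mean logarithm.
-/

open MeasureTheory ProbabilityTheory Filter Topology Real
open scoped NNReal

noncomputable section

namespace Vale.Agent.P168

variable {K N k : ℕ}

/-- An element of a list: a clause, a position, and sites with messages. -/
abbrev Elem (K N : ℕ) (Ξ : Type) : Type := (Clause K × Fin K) × Slots K N Ξ

variable {Ξ : Type} [MeasurableSpace Ξ]

/-- The law of an element. -/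
def elemLaw (μ : Measure (Clause K)) (ν : Measure (Fin N × Ξ)) : Measure (Elem K N Ξ) :=
  (μ.prod (unif (Fin K))).prod (Measure.pi fun _ => ν)

variable {S : Type} [Fintype S] (g : S → ℝ) (σ : S → Fin N → Bool) (X : S → Ξ → ℝ)

/-- The factor of an element in a state. -/
def fac (mixed : Bool) (e : Elem K N Ξ) (s : S) : ℝ :=
  if mixed then facM e.1.1 e.1.2 (fun i => X s (e.2 i).2) fun i => σ s (e.2 i).1
  else facB e.1.1 e.1.2 (fun i => X s (e.2 i).2) (σ s (e.2 e.1.2).1)

/-- The logarithm of the weights times the factors, the first `j` elements being mixed. -/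
def relLog (j : ℕ) (d : Fin k → Elem K N Ξ) : ℝ :=
  Real.log (∑ s, g s * ∏ i : Fin k, fac σ X (decide ((i : ℕ) < j)) (d i) s)

variable (hX : ∀ s ξ, X s ξ ∈ Set.Icc (-1 : ℝ) 1)
include hX

omit [MeasurableSpace Ξ] [Fintype S] in
theorem fac_mem (b : Bool) (e : Elem K N Ξ) (s : S) :
    Real.exp (-‖e.1.1‖) ≤ fac σ X b e s ∧ fac σ X b e s ≤ Real.exp ‖e.1.1‖ := by
  unfold fac
  cases b
  · exact facB_mem (fun i => hX _ _) _ _ _
  · exact facM_mem (fun i => hX _ _) _ _ _

omit hX [Fintype S] in
theorem measurable_fac (hXm : ∀ s, Measurable (X s)) (b : Bool) (s : S) :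
    Measurable fun e : Elem K N Ξ => fac σ X b e s := by
  have e : Measurable fun e : Elem K N Ξ =>
      ((e.1.1, fun i => (e.2 i).2), (e.1.2, fun i => (e.2 i).1)) :=
    ((measurable_fst.comp measurable_fst).prodMk
      (measurable_pi_lambda _ fun i => measurable_snd.comp ((measurable_pi_apply i).comp measurable_snd))).prodMk
      ((measurable_snd.comp measurable_fst).prodMk
        (measurable_pi_lambda _ fun i => measurable_fst.comp ((measurable_pi_apply i).comp measurable_snd)))
  cases b
  · have h : Measurable fun w : (Clause K × (Fin K → Ξ)) × (Fin K × (Fin K → Fin N)) =>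
        facB w.1.1 w.2.1 (fun i => X s (w.1.2 i)) (σ s (w.2.2 w.2.1)) :=
      measurable_from_prod_countable_left fun q =>
        (measurable_facs X hXm q.1 s (fun i => σ s (q.2 i)) (σ s (q.2 q.1))).2
    have h3 := h.comp e
    simp only [fac, Bool.false_eq_true, if_false]
    exact h3
  · have h : Measurable fun w : (Clause K × (Fin K → Ξ)) × (Fin K × (Fin K → Fin N)) =>
        facM w.1.1 w.2.1 (fun i => X s (w.1.2 i)) fun i => σ s (w.2.2 i) :=
      measurable_from_prod_countable_left fun q =>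
        (measurable_facs X hXm q.1 s (fun i => σ s (q.2 i)) true).1
    have h3 := h.comp e
    simp only [fac, if_true]
    exact h3

omit hX in
theorem measurable_relLog (hXm : ∀ s, Measurable (X s)) (j : ℕ) :
    Measurable fun d : Fin k → Elem K N Ξ => relLog g σ X j d :=
  measurable_log.comp (Finset.measurable_sum Finset.univ
    (f := fun s (d : Fin k → Elem K N Ξ) =>
      g s * ∏ i : Fin k, fac σ X (decide ((i : ℕ) < j)) (d i) s) fun s _ =>
    (Finset.measurable_prod _ fun i _ =>
      (measurable_fac σ X hXm _ s).comp (measurable_pi_apply i)).const_mul _)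

variable (hg : ∀ s, 0 ≤ g s) (hg1 : ∑ s, g s = 1)
include hg hg1

omit [MeasurableSpace Ξ] in
theorem abs_relLog_le (j : ℕ) (d : Fin k → Elem K N Ξ) :
    |relLog g σ X j d| ≤ ∑ i, ‖(d i).1.1‖ := by
  have hp : ∀ (i : Fin k) s, 0 < fac σ X (decide ((i : ℕ) < j)) (d i) s := fun i s =>
    (exp_pos _).trans_le (fac_mem σ X hX _ _ _).1
  have := abs_log_sum_exp_sub (d := ∑ i, ‖(d i).1.1‖)
    (a := fun s => ∑ i : Fin k, log (fac σ X (decide ((i : ℕ) < j)) (d i) s)) (b := fun _ => 0) hg
    (by rw [hg1]; exact one_pos) fun s => by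
      rw [sub_zero]
      refine (Finset.abs_sum_le_sum_abs _ _).trans (Finset.sum_le_sum fun i _ => ?_)
      obtain ⟨h1, h2⟩ := fac_mem σ X hX (decide ((i : ℕ) < j)) (d i) s
      exact abs_le.2 ⟨(le_log_iff_exp_le (hp i s)).2 h1, (log_le_iff_le_exp (hp i s)).2 h2⟩
  simpa [relLog, exp_sum, exp_log (hp _ _), hg1] using this

variable {Ω : Type} [MeasurableSpace Ω] (P : Measure Ω) [IsProbabilityMeasure P]
  (a b : Ω → ℝ) (f : Fin K → Ω → Bool → ℝ) {νh : Measure ℝ}
  (ν : Measure (Fin N × Ξ)) [IsProbabilityMeasure ν]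

theorem step_le (hK : Even K) (hK0 : 0 < K) (hXm : ∀ s, Measurable (X s))
    (hc : InClass P a b f νh) [IsProbabilityMeasure (clauseLaw P a b f)]
    (hθ : Integrable (fun θ : Clause K => ‖θ‖) (clauseLaw P a b f)) {j : ℕ} (hj : j < k) :
    ∫ d : Fin k → Elem K N Ξ, relLog g σ X (j + 1) d
        ∂(Measure.pi fun _ => elemLaw (clauseLaw P a b f) ν) ≤
      ∫ d : Fin k → Elem K N Ξ, relLog g σ X j d
        ∂(Measure.pi fun _ => elemLaw (clauseLaw P a b f) ν) := by
  obtain ⟨k, rfl⟩ := Nat.exists_eq_succ_of_ne_zero (by omega : k ≠ 0)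
  have : Nonempty (Fin K) := ⟨⟨0, hK0⟩⟩
  have := isProbabilityMeasure_unif (Fin K)
  set δ := elemLaw (clauseLaw P a b f) ν with hδ
  have hP : IsProbabilityMeasure δ := by rw [hδ, elemLaw]; infer_instance
  set j' : Fin (k + 1) := ⟨j, hj⟩
  have hn : Integrable (fun e : Elem K N Ξ => ‖e.1.1‖) δ := (hθ.comp_fst _).comp_fst _
  have hi : ∀ j, Integrable (fun d : Fin (k + 1) → Elem K N Ξ => relLog g σ X j d)
      (Measure.pi fun _ => δ) := fun j =>
    (integral_pi_sum hn).1.mono' (measurable_relLog g σ X hXm j).aestronglyMeasurable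
      (ae_of_all _ fun d => abs_relLog_le g σ X hX hg hg1 j d)
  rw [← sub_nonpos, ← integral_sub (hi _) (hi _)]
  have hmp := (measurePreserving_piFinSuccAbove (fun _ : Fin (k + 1) => δ) j').symm
  rw [← hmp.integral_comp' (f := MeasurableEquiv.piFinSuccAbove (fun _ : Fin (k + 1) => Elem K N Ξ) j' |>.symm)
    fun d => relLog g σ X (j + 1) d - relLog g σ X j d, integral_prod_symm]
  swap
  · exact (hmp.integrable_comp_of_integrable ((hi _).sub (hi _)))
  refine integral_nonpos fun rest => ?_
  set w : S → ℝ := fun s => g s * ∏ i, fac σ X (decide ((j'.succAbove i : ℕ) < j)) (rest i) s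
  have hw : ∀ s, 0 ≤ w s := fun s => mul_nonneg (hg s)
    (Finset.prod_nonneg fun i _ => ((exp_pos _).trans_le (fac_mem σ X hX _ _ _).1).le)
  have hW : 0 < ∑ s, w s := by
    obtain ⟨s0, -, hs0⟩ := Finset.exists_ne_zero_of_sum_ne_zero (hg1.trans_ne one_ne_zero)
    exact Finset.sum_pos' (fun s _ => hw s) ⟨s0, Finset.mem_univ _, mul_pos
      (lt_of_le_of_ne (hg s0) (Ne.symm hs0))
      (Finset.prod_pos fun i _ => (exp_pos _).trans_le (fac_mem σ X hX _ _ _).1)⟩
  have key : ∀ (J : ℕ) (e : Elem K N Ξ), (J = j ∨ J = j + 1) →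
      relLog g σ X J ((MeasurableEquiv.piFinSuccAbove (fun _ : Fin (k + 1) => Elem K N Ξ) j').symm
        (e, rest)) = Real.log (∑ s, w s * fac σ X (decide (j < J)) e s) := fun J e hJ => by
    unfold relLog
    congr 1
    refine Finset.sum_congr rfl fun s _ => ?_
    rw [Fin.prod_univ_succAbove _ j']
    have hne : ∀ i : Fin k, (j'.succAbove i : ℕ) ≠ j := fun i h =>
      Fin.succAbove_ne j' i (Fin.ext h)
    simp only [MeasurableEquiv.piFinSuccAbove_symm_apply, Fin.insertNthEquiv_apply,
      Fin.insertNth_apply_same, Fin.insertNth_apply_succAbove, w]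
    rw [Finset.prod_congr rfl fun i _ => show
      fac σ X (decide ((j'.succAbove i : ℕ) < J)) (rest i) s =
        fac σ X (decide ((j'.succAbove i : ℕ) < j)) (rest i) s by
      congr 2
      have := hne i
      rcases hJ with rfl | rfl <;> simp; omega]
    ring
  simp only [key _ _ (Or.inl rfl), key _ _ (Or.inr rfl), decide_eq_true (Nat.lt_succ_self j),
    decide_eq_false (lt_irrefl j)]
  have h2 : ∀ e : Elem K N Ξ, Real.log (∑ s, w s * fac σ X true e s) -
      Real.log (∑ s, w s * fac σ X false e s) =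
      swapD (fun s => w s / ∑ t, w t) σ X e := fun e => by
    have hp : ∀ b : Bool, 0 < ∑ s, w s * fac σ X b e s := fun b => by
      obtain ⟨s0, -, hs0⟩ := Finset.exists_ne_zero_of_sum_ne_zero hW.ne'
      exact Finset.sum_pos' (fun s _ => mul_nonneg (hw s)
        ((exp_pos _).trans_le (fac_mem σ X hX _ _ _).1).le) ⟨s0, Finset.mem_univ _,
        mul_pos (lt_of_le_of_ne (hw s0) (Ne.symm hs0))
          ((exp_pos _).trans_le (fac_mem σ X hX _ _ _).1)⟩
    have hs : ∀ h : S → ℝ, ∑ s, w s / (∑ t, w t) * h s = (∑ s, w s * h s) / ∑ t, w t := fun h => by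
      rw [Finset.sum_div]
      exact Finset.sum_congr rfl fun s _ => by ring
    have h1 := hp true
    have h0 := hp false
    simp only [fac, Bool.false_eq_true, if_false, if_true] at h1 h0 ⊢
    simp only [swapD, hs]
    rw [log_div h1.ne' hW.ne', log_div h0.ne' hW.ne']
    ring
  simp only [h2]
  exact swap_le (fun s => w s / ∑ t, w t) σ X (fun s => div_nonneg (hw s) hW.le)
    (by rw [← Finset.sum_div, div_self hW.ne']) hX P a b f ν hK hK0 hXm hc

end Vale.Agent.P168
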