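import Vale.Agent.P168.Truncate.TrialFac

/-!
P168: replacing one clause of the sites with messages by the mixture of a clause of the system and
a clause of the messages lowers the mean logarithm, for fixed weights of the states.
-/

open MeasureTheory ProbabilityTheory Filter Topology Real
open scoped NNReal

noncomputable section

namespace Vale.Agent.P168

variable {K N : ℕ}

/-- A site and the randomness of a message for every position. -/
abbrev Slots (K N : ℕ) (Ξ : Type) : Type := Fin K → Fin N × Ξ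

/-- The factor of a clause at a site whose other spins come from messages. -/
def facB (θ : Clause K) (l : Fin K) (v : Fin K → ℝ) (e : Bool) : ℝ :=
  ∑ τ, fixW v l e τ * Real.exp (θ τ)

/-- The factor of a clause all of whose spins come from messages. -/
def facC (θ : Clause K) (v : Fin K → ℝ) : ℝ :=
  ∑ τ : Fin K → Bool, (∏ i, msgW v i (τ i)) * Real.exp (θ τ)

/-- The factor of the mixture: a clause of the system at the first position, else of messages. -/
def facM (θ : Clause K) (l : Fin K) (v : Fin K → ℝ) (σ : Fin K → Bool) : ℝ :=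
  if (l : ℕ) = 0 then Real.exp (θ σ) else facC θ v

/-- The mean of a factor of one spin under a message. -/
def fbar (F : Bool → ℝ) (y : ℝ) : ℝ := F true * ((1 + y) / 2) + F false * ((1 - y) / 2)

theorem abs_fbar_le {F : Bool → ℝ} (hF : ∀ s, F s ∈ Set.Icc (-1 : ℝ) 1) {y : ℝ}
    (hy : y ∈ Set.Icc (-1 : ℝ) 1) : |fbar F y| ≤ 1 := by
  obtain ⟨h1, h2⟩ := hy
  obtain ⟨a1, a2⟩ := hF true
  obtain ⟨b1, b2⟩ := hF false
  unfold fbar
  rw [abs_le]
  constructor <;> nlinarith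

theorem sum_fixW_mul (v : Fin K → ℝ) (l : Fin K) (e : Bool) (F : Fin K → Bool → ℝ) :
    ∑ τ, fixW v l e τ * ∏ j, F j (τ j) = ∏ j, if j = l then F j e else fbar (F j) (v j) := by
  have h : ∀ τ, fixW v l e τ * ∏ j, F j (τ j) =
      ∏ j, (if j = l then (if τ j = e then (1 : ℝ) else 0) else msgW v j (τ j)) * F j (τ j) :=
    fun τ => by
    rw [Finset.prod_mul_distrib]
    congr 1
    rw [← Finset.mul_prod_erase _ _ (Finset.mem_univ l), if_pos rfl, Finset.prod_congr rfl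
      fun i hi => if_neg (Finset.ne_of_mem_erase hi), fixW, ite_mul, one_mul, zero_mul]
  simp only [h]
  rw [← Fintype.prod_sum (fun j s =>
    (if j = l then (if s = e then (1 : ℝ) else 0) else msgW v j s) * F j s)]
  refine Finset.prod_congr rfl fun j _ => ?_
  by_cases hj : j = l
  · subst hj
    cases e <;> simp
  · simp [hj, fbar, msgW, sgn]
    ring

theorem sum_msgW_mul (v : Fin K → ℝ) (F : Fin K → Bool → ℝ) :
    ∑ τ : Fin K → Bool, (∏ i, msgW v i (τ i)) * ∏ j, F j (τ j) = ∏ j, fbar (F j) (v j) := by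
  simp only [← Finset.prod_mul_distrib]
  rw [← Fintype.prod_sum (fun j s => msgW v j s * F j s)]
  exact Finset.prod_congr rfl fun j _ => by simp [fbar, msgW, sgn]; ring

theorem facC_mem {v : Fin K → ℝ} (hv : ∀ i, v i ∈ Set.Icc (-1 : ℝ) 1) (θ : Clause K) :
    Real.exp (-‖θ‖) ≤ facC θ v ∧ facC θ v ≤ Real.exp ‖θ‖ := by
  have h := logSum_compare (fun τ : Fin K → Bool => Finset.prod_nonneg fun i _ =>
    msgW_nonneg hv i _) (sum_msgW v) θ 0
  have hb : |Real.log (facC θ v)| ≤ ‖θ‖ := by simpa [facC, sum_msgW] using h.2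
  exact ⟨(le_log_iff_exp_le h.1).1 (abs_le.1 hb).1, (log_le_iff_le_exp h.1).1 (abs_le.1 hb).2⟩

theorem facB_mem {v : Fin K → ℝ} (hv : ∀ i, v i ∈ Set.Icc (-1 : ℝ) 1) (θ : Clause K) (l : Fin K)
    (e : Bool) : Real.exp (-‖θ‖) ≤ facB θ l v e ∧ facB θ l v e ≤ Real.exp ‖θ‖ := by
  have h := logSum_compare (fixW_nonneg hv l e) (sum_fixW v l e) θ 0
  have hb : |Real.log (facB θ l v e)| ≤ ‖θ‖ := by simpa [facB, sum_fixW] using h.2
  exact ⟨(le_log_iff_exp_le h.1).1 (abs_le.1 hb).1, (log_le_iff_le_exp h.1).1 (abs_le.1 hb).2⟩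

theorem facM_mem {v : Fin K → ℝ} (hv : ∀ i, v i ∈ Set.Icc (-1 : ℝ) 1) (θ : Clause K) (l : Fin K)
    (σ : Fin K → Bool) : Real.exp (-‖θ‖) ≤ facM θ l v σ ∧ facM θ l v σ ≤ Real.exp ‖θ‖ := by
  unfold facM
  split_ifs
  · have := norm_le_pi_norm θ σ
    rw [Real.norm_eq_abs, abs_le] at this
    exact ⟨exp_le_exp.2 this.1, exp_le_exp.2 this.2⟩
  · exact facC_mem hv θ

theorem convex_power (k : ℕ) {a b : ℝ} (ha : 0 ≤ a) (hb : 0 ≤ b) :
    ((k : ℝ) + 1) * (a * b ^ k) ≤ a ^ (k + 1) + k * b ^ (k + 1) := by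
  induction k with
  | zero => simp
  | succ k ih =>
    have h : 0 ≤ (a - b) * (a ^ (k + 1) - b ^ (k + 1)) := by
      rcases le_total b a with h | h
      · exact mul_nonneg (sub_nonneg.2 h) (sub_nonneg.2 (pow_le_pow_left₀ hb h _))
      · exact mul_nonneg_of_nonpos_of_nonpos (sub_nonpos.2 h)
          (sub_nonpos.2 (pow_le_pow_left₀ ha h _))
    have h2 := mul_le_mul_of_nonneg_right ih hb
    push_cast
    simp only [pow_succ] at h h2 ⊢
    nlinarith

theorem even_power_nonneg (hK : Even K) (hK0 : 0 < K) (x y : ℝ) :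
    0 ≤ x ^ K + ((K : ℝ) - 1) * y ^ K - K * (x * y ^ (K - 1)) := by
  obtain ⟨k, rfl⟩ := Nat.exists_eq_add_of_le hK0
  have h := convex_power k (abs_nonneg x) (abs_nonneg y)
  rw [Nat.succ_eq_add_one, zero_add, add_comm 1 k] at *
  rw [Nat.add_sub_cancel, hK.pow_abs, hK.pow_abs] at *
  have h2 : x * y ^ k ≤ |x| * |y| ^ k := by
    rw [← abs_pow, ← abs_mul]; exact le_abs_self _
  push_cast
  nlinarith [k.cast_nonneg (α := ℝ)]

section
variable {S : Type} [Fintype S] {Ξ : Type} [MeasurableSpace Ξ] (g : S → ℝ)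
  (σ : S → Fin N → Bool) (X : S → Ξ → ℝ) (F : Fin K → Bool → ℝ)

/-- The averaged product of the system. -/
def uA (z : Slots K N Ξ) : ℝ := ∑ s, g s * ∏ j, F j (σ s (z j).1)

/-- The averaged product of the messages. -/
def uC (z : Slots K N Ξ) : ℝ := ∑ s, g s * ∏ j, fbar (F j) (X s (z j).2)

/-- The averaged product at a site with messages. -/
def uB (l : Fin K) (z : Slots K N Ξ) : ℝ :=
  ∑ s, g s * ∏ j, if j = l then F j (σ s (z j).1) else fbar (F j) (X s (z j).2)

/-- The balance of a function of the averaged products. -/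
def bal (φ : ℝ → ℝ) (z : Slots K N Ξ) : ℝ :=
  (φ (uA g σ F z) + ((K : ℝ) - 1) * φ (uC g X F z) - ∑ l, φ (uB g σ X F l z)) / K

omit [MeasurableSpace Ξ] in
theorem abs_u_le (hg : ∀ s, 0 ≤ g s) (hg1 : ∑ s, g s = 1) {G : S → Fin K → ℝ}
    (hG : ∀ s j, |G s j| ≤ 1) : |∑ s, g s * ∏ j, G s j| ≤ 1 := by
  refine (Finset.abs_sum_le_sum_abs _ _).trans ((Finset.sum_le_sum fun s _ => ?_).trans hg1.le)
  rw [abs_mul, abs_of_nonneg (hg s), Finset.abs_prod]
  exact mul_le_of_le_one_right (hg s) (Finset.prod_le_one (fun _ _ => abs_nonneg _) fun j _ => hG s j)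

variable (hg : ∀ s, 0 ≤ g s) (hg1 : ∑ s, g s = 1)
  (hX : ∀ s ξ, X s ξ ∈ Set.Icc (-1 : ℝ) 1)
include hg hg1 hX

omit [MeasurableSpace Ξ] in
theorem u_mem (hF : ∀ j s, F j s ∈ Set.Icc (-1 : ℝ) 1) (z : Slots K N Ξ) :
    |uA g σ F z| ≤ 1 ∧ |uC g X F z| ≤ 1 ∧ ∀ l, |uB g σ X F l z| ≤ 1 := by
  have hA : ∀ s j, |F j s| ≤ 1 := fun s j => abs_le.2 (hF j s)
  refine ⟨abs_u_le g hg hg1 fun s j => hA _ _, abs_u_le g hg hg1 fun s j =>
    abs_fbar_le (hF j) (hX _ _), fun l => abs_u_le g hg hg1 fun s j => ?_⟩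
  split_ifs
  · exact hA _ _
  · exact abs_fbar_le (hF j) (hX _ _)

end

end Vale.Agent.P168
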