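import Vale.Agent.P168.Upper.Moments

/-!
P168: the replacement inequality for the class: the series in the coupling, by positivity.
-/

open MeasureTheory ProbabilityTheory Filter Topology Real
open scoped NNReal

noncomputable section

namespace Vale.Agent.P168

variable {K N : ℕ}

theorem abs_log_scale_le {x y η : ℝ} (hη : 0 ≤ η) (hη1 : η ≤ 1) (hx : -1 < x) (hy : -1 < y) :
    |log (1 + η * x) - log (1 + η * y)| ≤ |log (1 + x) - log (1 + y)| := by
  wlog h : y ≤ x generalizing x y with H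
  · rw [abs_sub_comm, abs_sub_comm (log (1 + x))]
    exact H hy hx (le_of_not_ge h)
  have p : ∀ {z : ℝ}, -1 < z → 0 < 1 + η * z := fun {z} hz => by
    rcases hη.eq_or_lt with rfl | h0
    · simp
    · nlinarith [mul_pos h0 (by linarith : 0 < 1 + z)]
  rw [abs_of_nonneg (sub_nonneg.2 (log_le_log (p hy) (by nlinarith))),
    abs_of_nonneg (sub_nonneg.2 (log_le_log (by linarith) (by linarith))),
    ← log_div (p hx).ne' (p hy).ne', ← log_div (by linarith) (by linarith)]
  refine log_le_log (div_pos (p hx) (p hy)) ?_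
  rw [div_le_div_iff₀ (p hy) (by linarith)]
  nlinarith [mul_nonneg (sub_nonneg.2 hη1) (sub_nonneg.2 h)]

section
variable {S : Type} [Fintype S] {Ξ : Type} [MeasurableSpace Ξ] (g : S → ℝ)
  (σ : S → Fin N → Bool) (X : S → Ξ → ℝ) (F : Fin K → Bool → ℝ) (z : Slots K N Ξ)

omit [MeasurableSpace Ξ] in
theorem bal_add_mul (c : ℝ) (φ ψ : ℝ → ℝ) :
    bal g σ X F (fun u => φ u + c * ψ u) z = bal g σ X F φ z + c * bal g σ X F ψ z := by
  simp only [bal, Finset.sum_add_distrib, ← Finset.mul_sum]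
  ring

omit [MeasurableSpace Ξ] in
theorem bal_const (c : ℝ) : bal g σ X F (fun _ => c) z = 0 := by
  rw [bal, div_eq_zero_iff]
  left
  simp
  ring

omit [MeasurableSpace Ξ] in
theorem hasSum_bal {ψ : ℕ → ℝ → ℝ} {φ : ℝ → ℝ} (hg : ∀ s, 0 ≤ g s) (hg1 : ∑ s, g s = 1)
    (hX : ∀ s ξ, X s ξ ∈ Set.Icc (-1 : ℝ) 1) (hF : ∀ j s, F j s ∈ Set.Icc (-1 : ℝ) 1)
    (h : ∀ u, |u| ≤ 1 → HasSum (fun m => ψ m u) (φ u)) :
    HasSum (fun m => bal g σ X F (ψ m) z) (bal g σ X F φ z) := by
  obtain ⟨h1, h2, h3⟩ := u_mem g σ X F hg hg1 hX hF z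
  exact (((h _ h1).add ((h _ h2).mul_left _)).sub (hasSum_sum fun l _ => h _ (h3 l))).div_const _

omit [MeasurableSpace Ξ] in
theorem abs_bal_le (hK : 0 < K)
    {φ : ℝ → ℝ} {B : ℝ} (hA : |φ (uA g σ F z)| ≤ B) (hC : |φ (uC g X F z)| ≤ B)
    (hB : ∀ l, |φ (uB g σ X F l z)| ≤ B) : |bal g σ X F φ z| ≤ 2 * B := by
  have hK1 : (1 : ℝ) ≤ K := by exact_mod_cast hK
  rw [bal, abs_div, abs_of_pos (by linarith : (0 : ℝ) < K), div_le_iff₀ (by linarith)]
  refine (abs_sub _ _).trans ((add_le_add ((abs_add_le _ _).trans (add_le_add hA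
    (le_of_eq_of_le (abs_mul _ _) (mul_le_mul_of_nonneg_left hC (abs_nonneg _)))))
    ((Finset.abs_sum_le_sum_abs _ _).trans (Finset.sum_le_sum fun l _ => hB l))).trans_eq ?_)
  rw [abs_of_nonneg (by linarith : (0 : ℝ) ≤ K - 1)]
  simp
  ring

end

theorem facM_first (θ : Clause K) {l : Fin K} (hl : (l : ℕ) = 0) (v : Fin K → ℝ)
    (τ : Fin K → Bool) : facM θ l v τ = Real.exp (θ τ) := if_pos hl

theorem facM_rest (θ : Clause K) {l : Fin K} (hl : (l : ℕ) ≠ 0) (v : Fin K → ℝ)
    (τ : Fin K → Bool) : facM θ l v τ = facC θ v := if_neg hl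

section
variable {S : Type} [Fintype S] {Ξ : Type} [MeasurableSpace Ξ] (g : S → ℝ)
  (σ : S → Fin N → Bool) (X : S → Ξ → ℝ)

/-- The change of the logarithm when a new element of the list is mixed rather than of sites. -/
def swapD (e : (Clause K × Fin K) × Slots K N Ξ) : ℝ :=
  Real.log (∑ s, g s * facM e.1.1 e.1.2 (fun i => X s (e.2 i).2) fun i => σ s (e.2 i).1) -
    Real.log (∑ s, g s * facB e.1.1 e.1.2 (fun i => X s (e.2 i).2) (σ s (e.2 e.1.2).1))

variable (hg : ∀ s, 0 ≤ g s) (hg1 : ∑ s, g s = 1)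
  (hX : ∀ s ξ, X s ξ ∈ Set.Icc (-1 : ℝ) 1)
include hg hg1 hX

omit [MeasurableSpace Ξ] in
theorem abs_swapD_le (e : (Clause K × Fin K) × Slots K N Ξ) :
    |swapD g σ X e| ≤ 2 * ‖e.1.1‖ := by
  have key : ∀ h : S → ℝ, (∀ s, Real.exp (-‖e.1.1‖) ≤ h s ∧ h s ≤ Real.exp ‖e.1.1‖) →
      |Real.log (∑ s, g s * h s)| ≤ ‖e.1.1‖ := fun h hh => by
    have hp : ∀ s, 0 < h s := fun s => (exp_pos _).trans_le (hh s).1
    have := abs_log_sum_exp_sub (d := ‖e.1.1‖) (a := fun s => log (h s)) (b := fun _ => 0) hg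
      (by rw [hg1]; exact one_pos) fun s => by
        rw [sub_zero]
        exact abs_le.2 ⟨(le_log_iff_exp_le (hp s)).2 (hh s).1, (log_le_iff_le_exp (hp s)).2 (hh s).2⟩
    simpa [exp_log (hp _), hg1] using this
  unfold swapD
  refine (abs_sub _ _).trans ((add_le_add (key _ fun s => facM_mem (fun i => hX _ _) _ _ _)
    (key _ fun s => facB_mem (fun i => hX _ _) _ _ _)).trans_eq ?_)
  ring

omit hg hg1 hX [Fintype S] in
theorem measurable_facs (hXm : ∀ s, Measurable (X s)) (l : Fin K) (s : S) (τ₀ : Fin K → Bool)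
    (e : Bool) :
    Measurable (fun w : Clause K × (Fin K → Ξ) => facM w.1 l (fun i => X s (w.2 i)) τ₀) ∧
    Measurable (fun w : Clause K × (Fin K → Ξ) => facB w.1 l (fun i => X s (w.2 i)) e) := by
  have hv : ∀ (i : Fin K) b, Measurable fun w : Clause K × (Fin K → Ξ) =>
      msgW (fun i => X s (w.2 i)) i b := fun i b =>
    ((((hXm s).comp ((measurable_pi_apply i).comp measurable_snd)).mul_const _).const_add 1).div_const 2
  have he : ∀ τ : Fin K → Bool, Measurable fun w : Clause K × (Fin K → Ξ) =>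
      Real.exp (w.1 τ) := fun τ => measurable_exp.comp ((measurable_pi_apply τ).comp measurable_fst)
  refine ⟨?_, ?_⟩
  · unfold facM facC
    by_cases h : (l : ℕ) = 0 <;> simp only [h, if_true, if_false]
    · exact he _
    · exact Finset.measurable_sum _ fun τ _ =>
        (Finset.measurable_prod _ fun i _ => hv i _).mul (he τ)
  · unfold facB fixW
    refine Finset.measurable_sum _ fun τ _ => Measurable.mul ?_ (he τ)
    by_cases h : τ l = e <;> simp only [h, if_true, if_false]
    · exact Finset.measurable_prod _ fun i _ => hv i _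
    · exact measurable_const

omit hg hg1 hX in
theorem measurable_swapD (hXm : ∀ s, Measurable (X s)) : Measurable (swapD g σ X (K := K)) := by
  have h2 : Measurable fun w : (Clause K × (Fin K → Ξ)) × (Fin K × (Fin K → Fin N)) =>
      Real.log (∑ s, g s * facM w.1.1 w.2.1 (fun i => X s (w.1.2 i)) fun i => σ s (w.2.2 i)) -
        Real.log (∑ s, g s * facB w.1.1 w.2.1 (fun i => X s (w.1.2 i)) (σ s (w.2.2 w.2.1))) :=
    measurable_from_prod_countable_left fun q =>
      (measurable_log.comp (Finset.measurable_sum _ fun s _ =>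
        (measurable_facs X hXm q.1 s (fun i => σ s (q.2 i)) true).1.const_mul _)).sub
      (measurable_log.comp (Finset.measurable_sum _ fun s _ =>
        (measurable_facs X hXm q.1 s (fun i => σ s (q.2 i)) (σ s (q.2 q.1))).2.const_mul _))
  have e : Measurable fun e : (Clause K × Fin K) × Slots K N Ξ =>
      ((e.1.1, fun i => (e.2 i).2), (e.1.2, fun i => (e.2 i).1)) :=
    ((measurable_fst.comp measurable_fst).prodMk
      (measurable_pi_lambda _ fun i => measurable_snd.comp ((measurable_pi_apply i).comp measurable_snd))).prodMk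
      ((measurable_snd.comp measurable_fst).prodMk
        (measurable_pi_lambda _ fun i => measurable_fst.comp ((measurable_pi_apply i).comp measurable_snd)))
  have h3 := h2.comp e
  unfold swapD
  exact h3

omit [MeasurableSpace Ξ] in
/-- The average over the position is a balance. -/
theorem sum_swapD (hK : 0 < K) {a b : ℝ} (ha : 0 < a) (hb : b ∈ Set.Ioo (-1 : ℝ) 1)
    {F : Fin K → Bool → ℝ} (hF : ∀ j s, F j s ∈ Set.Icc (-1 : ℝ) 1) (z : Slots K N Ξ) :
    (∑ l, swapD g σ X ((thetaOf a b F, l), z)) / K =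
      bal g σ X F (fun u => log (1 + b * u)) z := by
  have hpos : ∀ {u : ℝ}, |u| ≤ 1 → 0 < 1 + b * u := fun {u} hu => by
    have : |b * u| < 1 := by
      rw [abs_mul]
      exact lt_of_le_of_lt (mul_le_of_le_one_right (abs_nonneg _) hu) (abs_lt.2 hb)
    linarith [(abs_lt.1 this).1]
  have he : ∀ τ, Real.exp (thetaOf a b F τ) = a * (1 + b * ∏ j, F j (τ j)) := fun τ => by
    refine exp_log (mul_pos ha (hpos ?_))
    rw [Finset.abs_prod]
    exact Finset.prod_le_one (fun _ _ => abs_nonneg _) fun j _ => abs_le.2 (hF j _)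
  obtain ⟨h1, h2, h3⟩ := u_mem g σ X F hg hg1 hX hF z
  have hlog : ∀ {G : S → ℝ}, |∑ s, g s * G s| ≤ 1 →
      log (∑ s, g s * (a * (1 + b * G s))) = log a + log (1 + b * ∑ s, g s * G s) := fun {G} hG => by
    rw [← log_mul ha.ne' (hpos hG).ne']
    congr 1
    rw [Finset.sum_congr rfl fun s _ => show g s * (a * (1 + b * G s)) =
      a * g s + a * b * (g s * G s) by ring, Finset.sum_add_distrib, ← Finset.mul_sum,
      ← Finset.mul_sum, hg1]
    ring
  have eC : ∀ s, facC (thetaOf a b F) (fun i => X s (z i).2) =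
      a * (1 + b * ∏ j, fbar (F j) (X s (z j).2)) := fun s => by
    unfold facC
    simp only [he, mul_add, mul_one, ← mul_assoc, Finset.sum_add_distrib, ← Finset.sum_mul,
      sum_msgW]
    rw [← sum_msgW_mul (fun i => X s (z i).2) F, Finset.mul_sum, one_mul]
    congr 1
    exact Finset.sum_congr rfl fun τ _ => by ring
  have eB : ∀ l s, facB (thetaOf a b F) l (fun i => X s (z i).2) (σ s (z l).1) =
      a * (1 + b * ∏ j, if j = l then F j (σ s (z j).1) else fbar (F j) (X s (z j).2)) := fun l s => by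
    unfold facB
    simp only [he, mul_add, mul_one, ← mul_assoc, Finset.sum_add_distrib, ← Finset.sum_mul,
      sum_fixW]
    rw [one_mul, show (∏ j, if j = l then F j (σ s (z j).1) else fbar (F j) (X s (z j).2)) =
      ∏ j, if j = l then F j (σ s (z l).1) else fbar (F j) (X s (z j).2) from
        Finset.prod_congr rfl fun j _ => by by_cases hj : j = l <;> simp [hj],
      ← sum_fixW_mul (fun i => X s (z i).2) l (σ s (z l).1) F, Finset.mul_sum]
    congr 1
    exact Finset.sum_congr rfl fun τ _ => by ring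
  have hB : ∀ l, Real.log (∑ s, g s * facB (thetaOf a b F) l (fun i => X s (z i).2) (σ s (z l).1))
      = log a + log (1 + b * uB g σ X F l z) := fun l => by
    simp only [eB]
    exact hlog (h3 l)
  obtain ⟨k, rfl⟩ := Nat.exists_eq_succ_of_ne_zero hK.ne'
  simp only [swapD, Finset.sum_sub_distrib, hB, Finset.sum_add_distrib]
  rw [Fin.sum_univ_succ]
  simp only [facM_first (l := (0 : Fin (k + 1))) _ rfl, facM_rest (l := Fin.succ _) _
    (Nat.succ_ne_zero _), he, eC]
  rw [hlog h1, hlog h2]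
  simp only [bal, uA, uC, Finset.sum_const, Finset.card_univ, Fintype.card_fin, nsmul_eq_mul]
  push_cast
  field_simp
  ring

variable {Ω : Type} [MeasurableSpace Ω] (P : Measure Ω) [IsProbabilityMeasure P]
  (a b : Ω → ℝ) (f : Fin K → Ω → Bool → ℝ) {νh : Measure ℝ}
  (ν : Measure (Fin N × Ξ)) [IsProbabilityMeasure ν]

omit hg hg1 hX in
theorem map_f_tuple (hK : 0 < K) (hc : InClass P a b f νh) :
    P.map (fun ω j => f j ω) = Measure.pi fun _ : Fin K => P.map (f ⟨0, hK⟩) := by
  rw [(iIndepFun_iff_map_fun_eq_pi_map fun j => (hc.meas_f j).aemeasurable).1 hc.iindep]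
  exact congrArg Measure.pi (funext fun j => (hc.ident j ⟨0, hK⟩).map_eq)

omit [MeasurableSpace Ω] [IsProbabilityMeasure P] in
omit [MeasurableSpace Ξ] in
theorem abs_bal_pow_le (hK0 : 0 < K) {F : Fin K → Bool → ℝ}
    (hF : ∀ j s, F j s ∈ Set.Icc (-1 : ℝ) 1) (z : Slots K N Ξ) (m : ℕ) :
    |bal g σ X F (fun u => u ^ m) z| ≤ 2 := by
  obtain ⟨h1, h2, h3⟩ := u_mem g σ X F hg hg1 hX hF z
  have hp : ∀ {u : ℝ}, |u| ≤ 1 → |u ^ m| ≤ 1 := fun {u} hu => by
    rw [abs_pow]; exact pow_le_one₀ (abs_nonneg _) hu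
  simpa using abs_bal_le g σ X F z hK0 (φ := fun u => u ^ m) (hp h1) (hp h2) fun l => hp (h3 l)

/-- The mean of a power balance times the power of the coupling is nonnegative. -/
theorem integral_term_nonneg (hK : Even K) (hK0 : 0 < K) (hXm : ∀ s, Measurable (X s))
    (hc : InClass P a b f νh) (m : ℕ) :
    0 ≤ ∫ w : Ω × Slots K N Ξ, (-b w.1) ^ (m + 1) *
      bal g σ X (fun j => f j w.1) (fun u => u ^ (m + 1)) w.2
      ∂(P.prod (Measure.pi fun _ => ν)) := by
  have hfm : Measurable fun ω j => f j ω := measurable_pi_lambda _ hc.meas_f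
  have hpm : Measurable fun u : ℝ => u ^ (m + 1) := measurable_id.pow_const _
  have hB : Measurable fun v : (Fin K → Bool → ℝ) × Slots K N Ξ =>
      bal g σ X v.1 (fun u => u ^ (m + 1)) v.2 := measurable_bal g σ X hXm hpm
  set Q : (Fin K → Bool → ℝ) → ℝ := fun F =>
    ∫ z, bal g σ X F (fun u => u ^ (m + 1)) z ∂(Measure.pi fun _ => ν) with hQ
  have hQm : Measurable Q := (StronglyMeasurable.integral_prod_right'
    (ν := Measure.pi fun _ : Fin K => ν) hB.stronglyMeasurable).measurable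
  have hbm : Measurable fun ω => (-b ω) ^ (m + 1) := hc.meas_b.neg.pow_const _
  have hBi : Integrable (fun w : Ω × Slots K N Ξ => (-b w.1) ^ (m + 1) *
      bal g σ X (fun j => f j w.1) (fun u => u ^ (m + 1)) w.2)
      (P.prod (Measure.pi fun _ => ν)) := by
    refine Integrable.of_bound ((hbm.comp measurable_fst).mul
      (hB.comp ((hfm.comp measurable_fst).prodMk measurable_snd))).aestronglyMeasurable 2
      (ae_of_all _ fun w => ?_)
    rw [Real.norm_eq_abs, abs_mul, abs_pow, abs_neg]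
    exact (mul_le_mul (pow_le_one₀ (abs_nonneg _) (abs_lt.2 (hc.b_mem w.1)).le)
      (abs_bal_pow_le g σ X hg hg1 hX hK0 (fun j s => hc.f_mem j w.1 s) _ _) (abs_nonneg _)
      zero_le_one).trans_eq (one_mul _)
  rw [integral_prod _ hBi]
  simp only [integral_const_mul]
  have hind := hc.indep.comp (φ := fun t : ℝ => (-t) ^ (m + 1)) (measurable_neg.pow_const _) hQm
  have he := hind.integral_fun_mul_eq_mul_integral hbm.aestronglyMeasurable
    (hQm.comp hfm).aestronglyMeasurable
  simp only [Function.comp, hQ] at he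
  rw [he]
  refine mul_nonneg (hc.positive _ (Nat.succ_pos m)) ?_
  set ρ := P.map (f ⟨0, hK0⟩)
  have : IsProbabilityMeasure ρ := Measure.isProbabilityMeasure_map (hc.meas_f _).aemeasurable
  have hρ : ∀ᵐ F ∂ρ, ∀ s, F s ∈ Set.Icc (-1 : ℝ) 1 := (ae_map_iff (hc.meas_f _).aemeasurable
    (by simp only [Set.ofPred_forall]
        exact MeasurableSet.iInter fun s => (measurable_pi_apply s) measurableSet_Icc)).2
    (ae_of_all _ fun ω => hc.f_mem _ ω)
  rw [← integral_map (φ := fun ω j => f j ω) hfm.aemeasurable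
    (f := Q) hQm.aestronglyMeasurable, map_f_tuple P a b f hK0 hc]
  have hmp := measurePreserving_arrowProdEquivProdArrow (Bool → ℝ) (Fin N × Ξ) (Fin K)
    (fun _ => ρ) (fun _ => ν)
  rw [hQ, ← integral_prod (f := fun v : (Fin K → Bool → ℝ) × Slots K N Ξ =>
    bal g σ X v.1 (fun u => u ^ (m + 1)) v.2)]
  · rw [← hmp.integral_comp' fun v : (Fin K → Bool → ℝ) × Slots K N Ξ =>
      bal g σ X v.1 (fun u => u ^ (m + 1)) v.2]
    exact integral_bal_pow_nonneg g σ X hXm hg hX hK hK0 ρ hρ ν (m + 1)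
  · refine Integrable.of_bound hB.aestronglyMeasurable 2 ?_
    filter_upwards [Measure.quasiMeasurePreserving_fst.ae
      (eventually_all.2 fun j => (Measure.quasiMeasurePreserving_eval (fun _ : Fin K => ρ) j).ae hρ)]
      with v hv
    exact abs_bal_pow_le g σ X hg hg1 hX hK0 hv v.2 _

omit [MeasurableSpace Ξ] [MeasurableSpace Ω] [IsProbabilityMeasure P] in
/-- The series of the balance in the coupling. -/
theorem hasSum_bal_log {F : Fin K → Bool → ℝ}
    (hF : ∀ j s, F j s ∈ Set.Icc (-1 : ℝ) 1) (z : Slots K N Ξ) {c η : ℝ} (hc : |c| ≤ 1)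
    (hη : 0 ≤ η) (hη1 : η < 1) :
    HasSum (fun m : ℕ => -(η ^ (m + 1) / ((m : ℝ) + 1)) *
        ((-c) ^ (m + 1) * bal g σ X F (fun u => u ^ (m + 1)) z))
      (bal g σ X F (fun u => log (1 + η * (c * u))) z) := by
  have h := hasSum_bal g σ X F z hg hg1 hX hF
    (ψ := fun m u => -(η ^ (m + 1) / ((m : ℝ) + 1)) * (-c) ^ (m + 1) * u ^ (m + 1))
    (φ := fun u => log (1 + η * (c * u))) fun u hu => by
    have hx : |-(η * (c * u))| < 1 := by
      rw [abs_neg, abs_mul, abs_mul, abs_of_nonneg hη]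
      calc η * (|c| * |u|) ≤ η * 1 := mul_le_mul_of_nonneg_left
            ((mul_le_mul hc hu (abs_nonneg _) zero_le_one).trans_eq (one_mul 1)) hη
        _ < 1 := by rw [mul_one]; exact hη1
    have := (Real.hasSum_pow_div_log_of_abs_lt_one hx).neg
    rw [neg_neg, sub_neg_eq_add] at this
    refine this.congr_fun fun m => ?_
    rw [show -(η * (c * u)) = η * (-c) * u by ring, mul_pow, mul_pow]
    ring
  refine h.congr_fun fun m => ?_
  have := bal_add_mul g σ X F z (-(η ^ (m + 1) / ((m : ℝ) + 1)) * (-c) ^ (m + 1))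
    (fun _ => (0 : ℝ)) (fun u => u ^ (m + 1))
  simp only [zero_add, bal_const] at this
  simp only [this]
  ring

theorem integral_bal_log_nonpos (hK : Even K) (hK0 : 0 < K) (hXm : ∀ s, Measurable (X s))
    (hc : InClass P a b f νh) {η : ℝ} (hη : 0 ≤ η) (hη1 : η < 1) :
    Measurable (fun w : Ω × Slots K N Ξ =>
      bal g σ X (fun j => f j w.1) (fun u => log (1 + η * (b w.1 * u))) w.2) ∧
    ∫ w : Ω × Slots K N Ξ,
      bal g σ X (fun j => f j w.1) (fun u => log (1 + η * (b w.1 * u))) w.2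
      ∂(P.prod (Measure.pi fun _ => ν)) ≤ 0 := by
  have hfm : Measurable fun ω j => f j ω := measurable_pi_lambda _ hc.meas_f
  set T : ℕ → Ω × Slots K N Ξ → ℝ := fun m w => -(η ^ (m + 1) / ((m : ℝ) + 1)) *
    ((-b w.1) ^ (m + 1) * bal g σ X (fun j => f j w.1) (fun u => u ^ (m + 1)) w.2) with hT
  have hb1 : ∀ ω, |b ω| ≤ 1 := fun ω => (abs_lt.2 (hc.b_mem ω)).le
  have hTm : ∀ m, Measurable (T m) := fun m =>
    (((hc.meas_b.comp measurable_fst).neg.pow_const _).mul
      ((measurable_bal g σ X hXm (measurable_id.pow_const (m + 1))).comp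
        ((hfm.comp measurable_fst).prodMk measurable_snd))).const_mul _
  have hser : ∀ w : Ω × Slots K N Ξ, HasSum (fun m => T m w)
      (bal g σ X (fun j => f j w.1) (fun u => log (1 + η * (b w.1 * u))) w.2) := fun w =>
    hasSum_bal_log g σ X hg hg1 hX (fun j s => hc.f_mem j w.1 s) w.2 (hb1 w.1) hη hη1
  have hTb : ∀ m w, |T m w| ≤ 2 * η ^ (m + 1) := fun m w => by
    rw [hT, abs_mul, abs_neg, abs_div, abs_of_nonneg (pow_nonneg hη _),
      abs_of_pos (by positivity : (0 : ℝ) < m + 1), abs_mul, abs_pow, abs_neg]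
    have h1 : η ^ (m + 1) / ((m : ℝ) + 1) ≤ η ^ (m + 1) :=
      div_le_self (pow_nonneg hη _) (by linarith [m.cast_nonneg (α := ℝ)])
    refine (mul_le_mul h1 (mul_le_mul (pow_le_one₀ (abs_nonneg _) (hb1 _))
      (abs_bal_pow_le g σ X hg hg1 hX hK0 (fun j s => hc.f_mem j w.1 s) _ _) (abs_nonneg _)
      zero_le_one) (mul_nonneg (pow_nonneg (abs_nonneg _) _) (abs_nonneg _))
      (pow_nonneg hη _)).trans_eq ?_
    ring
  have hsum : Summable fun m : ℕ => 2 * η ^ (m + 1) :=
    (((summable_geometric_of_lt_one hη hη1).mul_left η).congr fun m => by ring).mul_left 2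
  refine ⟨measurable_of_tendsto_metrizable (f := fun n w => ∑ m ∈ Finset.range n, T m w)
    (fun n => Finset.measurable_sum _ fun m _ => hTm m)
    (tendsto_pi_nhds.2 fun w => (hser w).tendsto_sum_nat), ?_⟩
  have h2 := hasSum_integral_of_dominated_convergence (μ := P.prod (Measure.pi fun _ => ν))
    (fun m _ => 2 * η ^ (m + 1)) (fun m => (hTm m).aestronglyMeasurable)
    (fun m => ae_of_all _ fun w => hTb m w)
    (ae_of_all _ fun _ => hsum) (integrable_const _) (ae_of_all _ hser)
  refine h2.nonpos fun m => ?_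
  rw [hT, integral_const_mul]
  exact mul_nonpos_of_nonpos_of_nonneg (neg_nonpos.2 (by positivity))
    (integral_term_nonneg g σ X hg hg1 hX P a b f ν hK hK0 hXm hc m)

omit [MeasurableSpace Ξ] [MeasurableSpace Ω] [IsProbabilityMeasure P] in
/-- The balance of the logarithm is bounded by the size of the clause, at every damping. -/
theorem abs_bal_log_le (hK0 : 0 < K) {F : Fin K → Bool → ℝ}
    (hF : ∀ j s, F j s ∈ Set.Icc (-1 : ℝ) 1) (z : Slots K N Ξ) {α c η : ℝ} (hα : 0 < α)
    (hc : c ∈ Set.Ioo (-1 : ℝ) 1) (hη : 0 ≤ η) (hη1 : η ≤ 1) :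
    |bal g σ X F (fun u => log (1 + η * (c * u))) z| ≤ 4 * ‖thetaOf α c F‖ := by
  obtain ⟨h1, h2, h3⟩ := u_mem g σ X F hg hg1 hX hF z
  set θ := thetaOf α c F
  set u0 := ∏ j, F j true
  have hprod : ∀ G : Fin K → ℝ, (∀ j, |G j| ≤ 1) → |∏ j, G j| ≤ 1 := fun G hG => by
    rw [Finset.abs_prod]
    exact Finset.prod_le_one (fun _ _ => abs_nonneg _) fun j _ => hG j
  have hu0 : |u0| ≤ 1 := hprod _ fun j => abs_le.2 (hF j _)
  have hlt : ∀ {u : ℝ}, |u| ≤ 1 → -1 < c * u := fun {u} hu =>
    (abs_lt.1 (lt_of_le_of_lt ((abs_mul _ _).le.trans (mul_le_of_le_one_right (abs_nonneg _) hu))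
      (abs_lt.2 hc))).1
  have hn : ∀ τ, |θ τ| ≤ ‖θ‖ := fun τ => by rw [← Real.norm_eq_abs]; exact norm_le_pi_norm θ τ
  have e0 : ∀ τ, Real.exp (θ τ) = α * (1 + c * ∏ j, F j (τ j)) := fun τ =>
    exp_log (mul_pos hα (by
      linarith [hlt (hprod (fun j => F j (τ j)) fun j => abs_le.2 (hF j _))]))
  have key : ∀ G : S → ℝ, (∀ s, Real.exp (-‖θ‖) ≤ α * (1 + c * G s) ∧
      α * (1 + c * G s) ≤ Real.exp ‖θ‖) → |∑ s, g s * G s| ≤ 1 →
      |log (1 + η * (c * ∑ s, g s * G s)) - log (1 + η * (c * u0))| ≤ 2 * ‖θ‖ := fun G hG hu => by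
    refine (abs_log_scale_le hη hη1 (hlt hu) (hlt hu0)).trans ?_
    have e : ∑ s, g s * (α * (1 + c * G s)) = α * (1 + c * ∑ s, g s * G s) := by
      rw [Finset.sum_congr rfl fun s _ => show g s * (α * (1 + c * G s)) =
        α * g s + α * c * (g s * G s) by ring, Finset.sum_add_distrib,
        ← Finset.mul_sum, ← Finset.mul_sum, hg1]
      ring
    have hp : ∀ s, 0 < α * (1 + c * G s) := fun s => (exp_pos _).trans_le (hG s).1
    have h4 := abs_log_sum_exp_sub (d := ‖θ‖) (a := fun s => log (α * (1 + c * G s)))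
      (b := fun _ => 0) hg (by rw [hg1]; exact one_pos) fun s => by
        rw [sub_zero]
        exact abs_le.2 ⟨(le_log_iff_exp_le (hp s)).2 (hG s).1,
          (log_le_iff_le_exp (hp s)).2 (hG s).2⟩
    simp only [exp_log (hp _), e, exp_zero, mul_one, hg1, log_one, sub_zero] at h4
    have h5 := hn fun _ => true
    simp only [θ, thetaOf] at h5
    rw [log_mul hα.ne' (by linarith [hlt hu] : (0 : ℝ) < 1 + c * ∑ s, g s * G s).ne'] at h4
    rw [log_mul hα.ne' (by linarith [hlt hu0] : (0 : ℝ) < 1 + c * u0).ne'] at h5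
    rw [abs_le] at h4 h5 ⊢
    constructor <;> linarith
  have hbal : bal g σ X F (fun u => log (1 + η * (c * u))) z =
      bal g σ X F (fun u => log (1 + η * (c * u)) - log (1 + η * (c * u0))) z := by
    have := bal_add_mul g σ X F z (-1) (fun u => log (1 + η * (c * u)))
      fun _ => log (1 + η * (c * u0))
    simp only [bal_const, mul_zero, add_zero, neg_one_mul, ← sub_eq_add_neg] at this
    exact this.symm
  rw [hbal]
  refine (abs_bal_le g σ X F z hK0 (B := 2 * ‖θ‖) ?_ ?_ fun l => ?_).trans_eq (by ring)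
  · refine key (fun s => ∏ j, F j (σ s (z j).1)) (fun s => ?_) h1
    rw [← e0 fun j => σ s (z j).1]
    exact ⟨exp_le_exp.2 (abs_le.1 (hn _)).1, exp_le_exp.2 (abs_le.1 (hn _)).2⟩
  · refine key (fun s => ∏ j, fbar (F j) (X s (z j).2)) (fun s => ?_) h2
    have := facC_mem (v := fun i => X s (z i).2) (fun i => hX _ _) θ
    rw [show α * (1 + c * ∏ j, fbar (F j) (X s (z j).2)) = facC θ (fun i => X s (z i).2) by
      simp only [facC, e0, mul_add, mul_one, ← mul_assoc, Finset.sum_add_distrib,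
        ← Finset.sum_mul, sum_msgW, one_mul]
      rw [← sum_msgW_mul (fun i => X s (z i).2) F, Finset.mul_sum]
      congr 1
      exact Finset.sum_congr rfl fun τ _ => by ring]
    exact this
  · refine key (fun s => ∏ j, if j = l then F j (σ s (z j).1) else fbar (F j) (X s (z j).2))
      (fun s => ?_) (h3 l)
    have := facB_mem (v := fun i => X s (z i).2) (fun i => hX _ _) θ l (σ s (z l).1)
    rw [show α * (1 + c * ∏ j, if j = l then F j (σ s (z j).1) else fbar (F j) (X s (z j).2)) =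
      facB θ l (fun i => X s (z i).2) (σ s (z l).1) by
        simp only [facB, e0, mul_add, mul_one, ← mul_assoc, Finset.sum_add_distrib,
          ← Finset.sum_mul, sum_fixW, one_mul]
        rw [show (∏ j, if j = l then F j (σ s (z j).1) else fbar (F j) (X s (z j).2)) =
          ∏ j, if j = l then F j (σ s (z l).1) else fbar (F j) (X s (z j).2) from
            Finset.prod_congr rfl fun j _ => by by_cases hj : j = l <;> simp [hj],
          ← sum_fixW_mul (fun i => X s (z i).2) l (σ s (z l).1) F, Finset.mul_sum]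
        congr 1
        exact Finset.sum_congr rfl fun τ _ => by ring]
    exact this

/-- Mixing one more element lowers the mean logarithm. -/
theorem swap_le (hK : Even K) (hK0 : 0 < K) (hXm : ∀ s, Measurable (X s))
    (hc : InClass P a b f νh) :
    ∫ e, swapD g σ X e
      ∂(((clauseLaw P a b f).prod (unif (Fin K))).prod (Measure.pi fun _ : Fin K => ν)) ≤ 0 := by
  have : Nonempty (Fin K) := ⟨⟨0, hK0⟩⟩
  have := isProbabilityMeasure_unif (Fin K)
  set θ : Ω → Clause K := fun ω => thetaOf (a ω) (b ω) fun j => f j ω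
  have hθm : Measurable θ := by
    refine measurable_pi_lambda _ fun τ => measurable_log.comp (hc.meas_a.mul ((hc.meas_b.mul
      (Finset.measurable_prod _ fun j _ => ?_)).const_add 1))
    exact (measurable_pi_apply (τ j)).comp (hc.meas_f j)
  have hθi : Integrable (fun ω => ‖θ ω‖) P :=
    (integrable_finsetSum _ fun τ _ => (hc.theta_int τ).abs).mono' hθm.norm.aestronglyMeasurable
      (ae_of_all _ fun ω => by
        rw [Real.norm_of_nonneg (norm_nonneg _)]
        exact (pi_norm_le_iff_of_nonneg (Finset.sum_nonneg fun _ _ => abs_nonneg _)).2 fun τ =>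
          Finset.single_le_sum (f := fun τ => |θ ω τ|) (fun _ _ => abs_nonneg _) (Finset.mem_univ τ))
  set κ := P.prod (Measure.pi fun _ : Fin K => ν)
  have hsm := measurable_swapD g σ X (K := K) hXm
  have hmap : Measurable (Prod.map (Prod.map θ (id : Fin K → Fin K)) (id : Slots K N Ξ → _)) :=
    (hθm.prodMap measurable_id).prodMap measurable_id
  have e1 : ((clauseLaw P a b f).prod (unif (Fin K))).prod (Measure.pi fun _ : Fin K => ν) =
      ((P.prod (unif (Fin K))).prod (Measure.pi fun _ : Fin K => ν)).map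
        (Prod.map (Prod.map θ id) id) := by
    rw [← Measure.map_prod_map _ _ (hθm.prodMap measurable_id) measurable_id,
      ← Measure.map_prod_map _ _ hθm measurable_id, Measure.map_id, Measure.map_id]
    rfl
  rw [e1, integral_map hmap.aemeasurable hsm.aestronglyMeasurable]
  have hi : Integrable (fun w : (Ω × Fin K) × Slots K N Ξ =>
      swapD g σ X ((θ w.1.1, w.1.2), w.2)) ((P.prod (unif (Fin K))).prod (Measure.pi fun _ : Fin K => ν)) :=
    (((hθi.comp_fst _).comp_fst _).const_mul 2).mono' (hsm.comp hmap).aestronglyMeasurable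
      (ae_of_all _ fun w => abs_swapD_le g σ X hg hg1 hX _)
  have hsum : ∫ w : (Ω × Fin K) × Slots K N Ξ, swapD g σ X ((θ w.1.1, w.1.2), w.2)
      ∂((P.prod (unif (Fin K))).prod (Measure.pi fun _ : Fin K => ν)) =
      ∫ w : Ω × Slots K N Ξ, bal g σ X (fun j => f j w.1) (fun u => log (1 + b w.1 * u)) w.2 ∂κ := by
    rw [integral_prod _ hi, integral_prod _ hi.integral_prod_left]
    have hj : ∀ ω, ∀ l : Fin K, Integrable (fun z => swapD g σ X ((θ ω, l), z))
        (Measure.pi fun _ : Fin K => ν) := fun ω l =>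
      Integrable.of_bound (hsm.comp measurable_prodMk_left).aestronglyMeasurable (2 * ‖θ ω‖)
        (ae_of_all _ fun z => abs_swapD_le g σ X hg hg1 hX _)
    have hl : ∀ ω, (∫ l, ∫ z, swapD g σ X ((θ ω, l), z) ∂(Measure.pi fun _ : Fin K => ν) ∂unif (Fin K)) =
        ∫ z, bal g σ X (fun j => f j ω) (fun u => log (1 + b ω * u)) z
          ∂(Measure.pi fun _ : Fin K => ν) := fun ω => by
      rw [integral_fintype (f := fun l => ∫ z, swapD g σ X ((θ ω, l), z) ∂(Measure.pi fun _ : Fin K => ν))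
        Integrable.of_finite]
      simp only [← sum_swapD g σ X hg hg1 hX hK0 (hc.a_pos ω) (hc.b_mem ω)
        (fun j s => hc.f_mem j ω s)]
      rw [integral_div, integral_finsetSum _ (f := fun l z => swapD g σ X ((θ ω, l), z))
        fun l _ => hj ω l, Finset.sum_div]
      refine Finset.sum_congr rfl fun l _ => ?_
      simp [unif, measureReal_def, div_eq_inv_mul]
    simp only [hl]
    rw [integral_prod]
    refine Integrable.mono' ((hθi.comp_fst _).const_mul 4) ?_ ?_
    · exact ((StronglyMeasurable.integral_prod_right' (ν := unif (Fin K))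
        (f := fun q : (Ω × Slots K N Ξ) × Fin K => swapD g σ X ((θ q.1.1, q.2), q.1.2))
        ((hsm.comp hmap).comp (((measurable_fst.comp measurable_fst).prodMk measurable_snd).prodMk
          (measurable_snd.comp measurable_fst))).stronglyMeasurable).aestronglyMeasurable.congr
        (ae_of_all _ fun w => by
          dsimp only
          rw [integral_fintype Integrable.of_finite, ← sum_swapD g σ X hg hg1 hX hK0
            (hc.a_pos w.1) (hc.b_mem w.1) (fun j s => hc.f_mem j w.1 s), Finset.sum_div]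
          refine Finset.sum_congr rfl fun l _ => ?_
          simp [θ, unif, measureReal_def, div_eq_inv_mul]))
    · refine ae_of_all _ fun w => ?_
      rw [Real.norm_eq_abs, ← sum_swapD g σ X hg hg1 hX hK0 (hc.a_pos w.1) (hc.b_mem w.1)
        (fun j s => hc.f_mem j w.1 s), abs_div, Nat.abs_cast]
      refine div_le_of_le_mul₀ (Nat.cast_nonneg K) (by positivity)
        ((Finset.abs_sum_le_sum_abs _ _).trans ((Finset.sum_le_sum fun l _ =>
          abs_swapD_le g σ X hg hg1 hX _).trans ?_))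
      simp only [θ, Finset.sum_const, Finset.card_univ, Fintype.card_fin, nsmul_eq_mul]
      nlinarith [norm_nonneg (θ w.1), (Nat.cast_nonneg K : (0 : ℝ) ≤ K),
        mul_nonneg (Nat.cast_nonneg (α := ℝ) K) (norm_nonneg (θ w.1))]
  refine le_of_eq_of_le hsum ?_
  set η : ℕ → ℝ := fun n => 1 - 1 / ((n : ℝ) + 1)
  have hη : ∀ n, 0 ≤ η n ∧ η n < 1 := fun n => by
    have h1 : (1 : ℝ) ≤ n + 1 := by linarith [n.cast_nonneg (α := ℝ)]
    exact ⟨sub_nonneg.2 (div_le_one_of_le₀ h1 (by linarith)), sub_lt_self _ (by positivity)⟩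
  have hηt : Tendsto η atTop (𝓝 1) := by
    simpa [η] using (tendsto_const_nhds (x := (1 : ℝ))).sub tendsto_one_div_add_atTop_nhds_zero_nat
  refine le_of_tendsto' (tendsto_integral_of_dominated_convergence (fun w => 4 * ‖θ w.1‖)
    (F := fun n w => bal g σ X (fun j => f j w.1) (fun u => log (1 + η n * (b w.1 * u))) w.2)
    (fun n => (integral_bal_log_nonpos g σ X hg hg1 hX P a b f ν hK hK0 hXm hc
      (hη n).1 (hη n).2).1.aestronglyMeasurable)
    ((hθi.comp_fst _).const_mul 4) (fun n => ae_of_all _ fun w => ?_) (ae_of_all _ fun w => ?_))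
    fun n => (integral_bal_log_nonpos g σ X hg hg1 hX P a b f ν hK hK0 hXm hc (hη n).1 (hη n).2).2
  · rw [Real.norm_eq_abs]
    exact abs_bal_log_le g σ X hg hg1 hX hK0 (fun j s => hc.f_mem j w.1 s) w.2 (hc.a_pos w.1)
      (hc.b_mem w.1) (hη n).1 (hη n).2.le
  · obtain ⟨h1, h2, h3⟩ := u_mem g σ X _ hg hg1 hX (fun j s => hc.f_mem j w.1 s) w.2
    have hlim : ∀ {u : ℝ}, |u| ≤ 1 →
        Tendsto (fun n => log (1 + η n * (b w.1 * u))) atTop (𝓝 (log (1 + b w.1 * u))) :=
      fun {u} hu => by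
      have : 1 + b w.1 * u ≠ 0 := by
        have := (abs_lt.1 (lt_of_le_of_lt ((abs_mul _ _).le.trans (mul_le_of_le_one_right
          (abs_nonneg _) hu)) (abs_lt.2 (hc.b_mem w.1)))).1
        linarith
      have ht := (hηt.mul_const (b w.1 * u)).const_add 1
      rw [one_mul] at ht
      exact ht.log this
    simp only [bal]
    exact ((((hlim h1).add ((hlim h2).const_mul _)).sub
      (tendsto_finsetSum _ fun l _ => hlim (h3 l))).div_const _)

end

end Vale.Agent.P168
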