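import Vale.Agent.P168.Upper.Layout

/-!
P168: the interpolated recursion decreases as elements are mixed: through finite trees.
-/

open MeasureTheory ProbabilityTheory Filter Topology Real
open scoped NNReal

noncomputable section

namespace Vale.Agent.P168

open P157.Casc (Leaf Node node path wgt casW casX logS cst)

variable {K N k r n : ℕ}

/-- The message values of an element at given variables of the levels. -/
def rootMsg (x : (Fin (r + 1) → ℝ) → ℝ) (z : Root K N) (y : Fin r → Fin K → ℝ) (l : Fin K) : ℝ :=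
  x (Fin.cons (z.2 l).2 fun p => y p l)

/-- The factor of an element at given spins and variables. -/
def rootFac (x : (Fin (r + 1) → ℝ) → ℝ) (mixed : Bool) (z : Root K N)
    (y : Fin r → Fin K → ℝ) (τ : Fin N → Bool) : ℝ :=
  if mixed then facM z.1.1 z.1.2 (rootMsg x z y) fun i => τ (z.2 i).1
  else facB z.1.1 z.1.2 (rootMsg x z y) (τ (z.2 z.1.2).1)

/-- The leaf variable with the first `j` elements mixed. -/
def leafY (x : (Fin (r + 1) → ℝ) → ℝ) (h : Fin N → ℝ) (j : ℕ) (z : Fin k → Root K N)
    (y : Fin r → Fin k → Fin K → ℝ) : ℝ :=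
  ∑ τ : Fin N → Bool, Real.exp (∑ i, h i * sgn (τ i)) *
    ∏ i : Fin k, rootFac x (decide ((i : ℕ) < j)) (z i) (fun p => y p i) τ

variable {x : (Fin (r + 1) → ℝ) → ℝ} (hx : ∀ w, x w ∈ Set.Icc (-1 : ℝ) 1) (hxm : Measurable x)
include hx

theorem rootFac_mem (b : Bool) (z : Root K N) (y : Fin r → Fin K → ℝ) (τ : Fin N → Bool) :
    Real.exp (-‖z.1.1‖) ≤ rootFac x b z y τ ∧ rootFac x b z y τ ≤ Real.exp ‖z.1.1‖ := by
  unfold rootFac
  cases b
  · exact facB_mem (fun i => hx _) _ _ _
  · exact facM_mem (fun i => hx _) _ _ _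

/-- The bound on the logarithm of the leaf variable. -/
def leafB (h : Fin N → ℝ) (z : Fin k → Root K N) : ℝ :=
  N * Real.log 2 + (∑ i, |h i|) + ∑ i, ‖(z i).1.1‖

theorem leafY_mem (h : Fin N → ℝ) (j : ℕ) (z : Fin k → Root K N)
    (y : Fin r → Fin k → Fin K → ℝ) :
    0 < leafY x h j z y ∧ |Real.log (leafY x h j z y)| ≤ leafB h z := by
  set L : (Fin N → Bool) → ℝ := fun τ => (∑ i, h i * sgn (τ i)) +
    ∑ i : Fin k, Real.log (rootFac x (decide ((i : ℕ) < j)) (z i) (fun p => y p i) τ)
  have hp : ∀ (i : Fin k) τ, 0 < rootFac x (decide ((i : ℕ) < j)) (z i) (fun p => y p i) τ :=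
    fun i τ => (exp_pos _).trans_le (rootFac_mem hx _ _ _ _).1
  have e : leafY x h j z y = ∑ τ, 1 * Real.exp (L τ) := Finset.sum_congr rfl fun τ _ => by
    rw [one_mul, exp_add, exp_sum Finset.univ (fun i : Fin k =>
      Real.log (rootFac x (decide ((i : ℕ) < j)) (z i) (fun p => y p i) τ)),
      Finset.prod_congr rfl fun i _ => exp_log (hp i τ)]
  have hb := abs_log_sum_exp_sub (d := (∑ i, |h i|) + ∑ i, ‖(z i).1.1‖) (a := L)
    (b := fun _ : Fin N → Bool => (0 : ℝ)) (w := fun _ => (1 : ℝ)) (fun _ => zero_le_one)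
    (by simp) fun τ => by
      rw [sub_zero]
      refine (abs_add_le _ _).trans (add_le_add ((Finset.abs_sum_le_sum_abs _ _).trans_eq
        (Finset.sum_congr rfl fun i _ => abs_sgn_mul _ _)) ((Finset.abs_sum_le_sum_abs _ _).trans
        (Finset.sum_le_sum fun i _ => ?_)))
      obtain ⟨h1, h2⟩ := rootFac_mem hx (decide ((i : ℕ) < j)) (z i) (fun p => y p i) τ
      exact abs_le.2 ⟨(le_log_iff_exp_le (hp i τ)).2 h1, (log_le_iff_le_exp (hp i τ)).2 h2⟩
  refine ⟨by rw [e]; exact Finset.sum_pos (fun τ _ => by positivity) Finset.univ_nonempty, ?_⟩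
  rw [e]
  simp only [exp_zero, mul_one, Finset.sum_const, Finset.card_univ, Fintype.card_fun,
    Fintype.card_bool, Fintype.card_fin, nsmul_eq_mul, Nat.cast_pow, Nat.cast_ofNat, log_pow,
    one_mul] at hb ⊢
  rw [abs_le] at hb ⊢
  have : 0 ≤ (N : ℝ) * Real.log 2 := by positivity
  unfold leafB
  constructor <;> linarith

omit hx in
include hxm in
theorem measurable_leafY (h : Fin N → ℝ) (j : ℕ) :
    Measurable fun q : (Fin k → Root K N) × (Fin r → Fin k → Fin K → ℝ) => leafY x h j q.1 q.2 := by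
  have hf : ∀ b τ, Measurable fun w : Root K N × (Fin r → Fin K → ℝ) => rootFac x b w.1 w.2 τ := by
    intro b τ
    have he : Measurable fun w : Root K N × (Fin r → Fin K → ℝ) =>
        ((w.1.1.1, fun l => (Fin.cons (w.1.2 l).2 fun p => w.2 p l : Fin (r + 1) → ℝ)),
          (w.1.1.2, fun l => (w.1.2 l).1)) := by
      refine ((measurable_fst.comp (measurable_fst.comp measurable_fst)).prodMk
        (measurable_pi_lambda _ fun l => ?_)).prodMk
        ((measurable_snd.comp (measurable_fst.comp measurable_fst)).prodMk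
          (measurable_pi_lambda _ fun l => measurable_fst.comp
            ((measurable_pi_apply l).comp (measurable_snd.comp measurable_fst))))
      exact measurable_finCons.comp ((measurable_snd.comp
        ((measurable_pi_apply l).comp (measurable_snd.comp measurable_fst))).prodMk
        (measurable_pi_lambda _ fun p => (measurable_pi_apply l).comp
          ((measurable_pi_apply p).comp measurable_snd)))
    cases b
    · have h1 : Measurable fun w : (Clause K × (Fin K → Fin (r + 1) → ℝ)) × (Fin K × (Fin K → Fin N)) =>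
          facB w.1.1 w.2.1 (fun i => x (w.1.2 i)) (τ (w.2.2 w.2.1)) :=
        measurable_from_prod_countable_left fun q =>
          (measurable_facs (S := Unit) (fun _ => x) (fun _ => hxm) q.1 () (fun i => τ (q.2 i))
            (τ (q.2 q.1))).2
      have h3 := h1.comp he
      simp only [rootFac, Bool.false_eq_true, if_false]
      exact h3
    · have h1 : Measurable fun w : (Clause K × (Fin K → Fin (r + 1) → ℝ)) × (Fin K × (Fin K → Fin N)) =>
          facM w.1.1 w.2.1 (fun i => x (w.1.2 i)) fun i => τ (w.2.2 i) :=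
        measurable_from_prod_countable_left fun q =>
          (measurable_facs (S := Unit) (fun _ => x) (fun _ => hxm) q.1 () (fun i => τ (q.2 i)) true).1
      have h3 := h1.comp he
      simp only [rootFac, if_true]
      exact h3
  exact Finset.measurable_sum Finset.univ
    (f := fun τ (q : (Fin k → Root K N) × (Fin r → Fin k → Fin K → ℝ)) =>
      Real.exp (∑ i, h i * sgn (τ i)) *
        ∏ i : Fin k, rootFac x (decide ((i : ℕ) < j)) (q.1 i) (fun p => q.2 p i) τ) fun τ _ =>
    (Finset.measurable_prod _ fun i _ => (hf _ τ).comp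
      (((measurable_pi_apply i).comp measurable_fst).prodMk (measurable_pi_lambda _ fun p =>
        (measurable_pi_apply i).comp ((measurable_pi_apply p).comp measurable_snd)))).const_mul _

omit hx in
theorem casc_log_eq_rpowRec {X : Type} [MeasurableSpace X] {ν : Measure X} [IsProbabilityMeasure ν] :
    ∀ (r : ℕ) {m : Fin r → ℝ}, (∀ p, 0 < m p) → ∀ {Y : (Fin r → X) → ℝ} {B : ℝ}, Measurable Y →
    (∀ w, Real.exp (-B) ≤ Y w ∧ Y w ≤ Real.exp B) →
    P157.Casc.casc ν r m (fun w => Real.log (Y w)) = Real.log (rpowRec ν r m Y)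
  | 0, _, _, _, _, _, _ => rfl
  | r + 1, m, hm, Y, B, hY, hB => by
    have hp : ∀ y, 0 < rpowRec ν r (fun p => m p.succ) fun z => Y (Fin.cons y z) := fun y =>
      (exp_pos _).trans_le (rpowRec_mem r _ (fun p => hm _)
        (hY.comp (measurable_finCons_right y)) (exp_pos _) fun z => hB _).1
    simp only [P157.Casc.casc, rpowRec]
    rw [integral_congr_ae (g := fun y =>
      rpowRec ν r (fun p => m p.succ) (fun z => Y (Fin.cons y z)) ^ m 0) (ae_of_all _ fun y => by
      dsimp only
      rw [casc_log_eq_rpowRec r (fun p => hm _) (Y := fun z => Y (Fin.cons y z))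
        (hY.comp (measurable_finCons_right y)) fun z => hB _, rpow_def_of_pos (hp y), mul_comm]), log_rpow]
    have hlo : ∀ y, Real.exp (-B) ≤ rpowRec ν r (fun p => m p.succ) fun z => Y (Fin.cons y z) :=
      fun y => (rpowRec_mem r _ (fun p => hm _) (hY.comp (measurable_finCons_right y))
        (exp_pos _) fun z => hB _).1
    have hhi : ∀ y, rpowRec ν r (fun p => m p.succ) (fun z => Y (Fin.cons y z)) ≤ Real.exp B :=
      fun y => (rpowRec_mem r _ (fun p => hm _) (hY.comp (measurable_finCons_right y))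
        (exp_pos _) fun z => hB _).2
    refine lt_of_lt_of_le (rpow_pos_of_pos (exp_pos (-B)) (m 0)) ?_
    have hi : Integrable (fun y =>
        rpowRec ν r (fun p => m p.succ) (fun z => Y (Fin.cons y z)) ^ m 0) ν :=
      Integrable.of_bound ((measurable_rpowRec r _ (Y := fun y z => Y (Fin.cons y z))
        (hY.comp measurable_finCons)).pow_const _).aestronglyMeasurable (Real.exp B ^ m 0)
        (ae_of_all _ fun y => by
          rw [Real.norm_of_nonneg (rpow_nonneg (hp y).le _)]
          exact rpow_le_rpow (hp y).le (hhi y) (hm 0).le)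
    simpa using integral_mono (integrable_const (Real.exp (-B) ^ m 0)) hi fun y =>
      rpow_le_rpow (exp_pos _).le (hlo y) (hm 0).le

/-- The mean interpolated recursion of `k` elements, the first `j` mixed, at given fields. -/
def interpRec (μ : Measure (Clause K)) (m : Fin r → ℝ) (x : (Fin (r + 1) → ℝ) → ℝ)
    (h : Fin N → ℝ) (k j : ℕ) : ℝ :=
  ∫ z : Fin k → Root K N, Real.log (rpowRec (lvl k K) r m (leafY x h j z))
    ∂(Measure.pi fun _ => rootMeas μ)

omit hx in
theorem logS_eq_relLog {x : (Fin (r + 1) → ℝ) → ℝ} (hx : ∀ w, x w ∈ Set.Icc (-1 : ℝ) 1)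
    (m : Fin r → ℝ) (h : Fin N → ℝ) (j : ℕ) (W : Node r n → ℝ) (hW : ∀ v, 0 < W v) (hn : 0 < n)
    (q : (Fin k → Root K N) × (Node r n → Fin k → Fin K → ℝ)) :
    logS m (leafY x h j q.1) W q.2 =
      Real.log (∑ s : Leaf r n × (Fin N → Bool), wgt m W s.1 * Real.exp (∑ i, h i * sgn (s.2 i))) +
        relLog (fun s => wgt m W s.1 * Real.exp (∑ i, h i * sgn (s.2 i)) /
          ∑ t : Leaf r n × (Fin N → Bool), wgt m W t.1 * Real.exp (∑ i, h i * sgn (t.2 i)))
          Prod.snd (fun s (ξ : TreeMsg r n) => x (Fin.cons ξ.1 (path ξ.2 s.1))) j (layout q) := by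
  have : Nonempty (Fin n) := ⟨⟨0, hn⟩⟩
  set w : Leaf r n × (Fin N → Bool) → ℝ := fun s =>
    wgt m W s.1 * Real.exp (∑ i, h i * sgn (s.2 i))
  have hw : ∀ s, 0 < w s := fun s => mul_pos (P157.Casc.wgt_pos m hW _) (exp_pos _)
  have hT : 0 < ∑ t, w t := Finset.sum_pos (fun s _ => hw s) Finset.univ_nonempty
  set G : Leaf r n × (Fin N → Bool) → ℝ := fun s => ∏ i : Fin k,
    fac Prod.snd (fun s (ξ : TreeMsg r n) => x (Fin.cons ξ.1 (path ξ.2 s.1)))
      (decide ((i : ℕ) < j)) (layout q i) s
  have hG : ∀ s, 0 < G s := fun s =>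
    Finset.prod_pos fun i _ => (exp_pos _).trans_le (fac_mem _ _ (fun s ξ => hx _) _ _ _).1
  have e1 : ∑ α, wgt m W α * leafY x h j q.1 (path q.2 α) = ∑ s, w s * G s := by
    rw [Fintype.sum_prod_type]
    refine Finset.sum_congr rfl fun α _ => ?_
    rw [leafY, Finset.mul_sum]
    refine Finset.sum_congr rfl fun τ _ => ?_
    simp only [w, G]
    rw [mul_assoc]
    rfl
  have e2 : ∑ s, w s / (∑ t, w t) * G s = (∑ s, w s * G s) / ∑ t, w t := by
    rw [Finset.sum_div]
    exact Finset.sum_congr rfl fun s _ => by ring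
  show Real.log (∑ α, wgt m W α * leafY x h j q.1 (path q.2 α)) =
    Real.log (∑ t, w t) + Real.log (∑ s, w s / (∑ t, w t) * G s)
  rw [e1, e2, log_div (Finset.sum_pos (fun s _ => mul_pos (hw s) (hG s))
    Finset.univ_nonempty).ne' hT.ne']
  ring

end Vale.Agent.P168
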